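import Vale.Agent.P166.Parisi.Basics.Spins
import Vale.Agent.P166.Basic

/-!
Module B1, first half: the free energies of the systems.
-/

set_option linter.unusedSectionVars false

namespace Vale.Agent.P166.Parisi

open MeasureTheory ProbabilityTheory Finset Matrix
open Vale.Agent.P157 Vale.Agent.P157.Parisi

variable {N M m : ℕ}

namespace Lin

/-- The coefficients of the glass. -/
noncomputable def gA (U : ON N) (σ : Fin N → Bool) : FIdx N → ℝ :=
  Sum.elim (spin σ) (rotSpin U σ)

/-- The exponents of the weights of the glass. -/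
noncomputable def gC (lam : Fin N → ℝ) (U : ON N) (σ : Fin N → Bool) : ℝ :=
  1 / 2 * eng lam (U : Matrix (Fin N) (Fin N) ℝ) σ

/-- The fixed factors of the weights of the glass. -/
noncomputable def gB (N : ℕ) : (Fin N → Bool) → ℝ := fun _ => 1 / (2 : ℝ) ^ N

/-- The coefficients with extra spins. -/
noncomputable def eA (m : ℕ) (U : ON N) (ω : (Fin N → Bool) × (Fin m → Bool)) :
    FIdx N ⊕ Fin m → ℝ := Sum.elim (gA U ω.1) (spin ω.2)

/-- The exponents with extra spins. -/
noncomputable def eC (lam : Fin N → ℝ) (Φ : (Fin m → Bool) → (Fin N → ℝ) → ℝ) (U : ON N)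
    (ω : (Fin N → Bool) × (Fin m → Bool)) : ℝ :=
  1 / 2 * eng lam (U : Matrix (Fin N) (Fin N) ℝ) ω.1 + Φ ω.2 (rotSpin U ω.1)

/-- The fixed factors with extra spins. -/
noncomputable def eB (N m : ℕ) : (Fin N → Bool) × (Fin m → Bool) → ℝ :=
  fun _ => 1 / (2 : ℝ) ^ N * (1 / (2 : ℝ) ^ m)

lemma gB_pos : ∀ σ, 0 < gB N σ := fun _ => by unfold gB; positivity

lemma eB_pos : ∀ ω, 0 < eB N m ω := fun _ => by unfold eB; positivity

lemma glassLeaf_eq (U : ON N) : glassLeaf U = linLeaf (gA U) := rfl

lemma extLeaf_eq (U : ON N) : extLeaf m U = linLeaf (eA m U) := rfl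

lemma quadPart_eq (lam : Fin N → ℝ) (U : ON N) : quadPart lam U = wSum (gB N) (gC lam U) := by
  rw [quadPart, wSum, mul_sum]
  rfl

lemma quadLaw_eq (lam : Fin N → ℝ) (U : ON N) : quadLaw lam U = wLaw (gB N) (gC lam U) := by
  rw [quadLaw, wLaw, quadPart_eq]
  rfl

lemma extLaw_eq (lam : Fin N → ℝ) (Φ : (Fin m → Bool) → (Fin N → ℝ) → ℝ) (U : ON N) :
    extLaw lam Φ U = wLaw (eB N m) (eC lam Φ U) := rfl

lemma gridX_facts (K : ℕ) :
    gridX K 0 = 0 ∧ gridX K (K + 1 + 1) = 1 ∧ (∀ l, 1 ≤ l → 0 < gridX K l) ∧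
      (∀ l, gridX K l ≤ gridX K (l + 1)) ∧ ∀ l, gridX K l ≤ 1 := by
  refine ⟨by simp [gridX, lvl], ?_, fun l hl => ?_, fun l => ?_, fun l => min_le_left _ _⟩
  · refine min_eq_left ?_
    rw [lvl, le_div_iff₀ (by positivity)]
    push_cast; linarith
  · exact lt_min one_pos (div_pos (by exact_mod_cast hl) (by positivity))
  · exact min_le_min le_rfl (div_le_div_of_nonneg_right (by simp) (by positivity))

lemma abs_spin_le (σ : Fin N → Bool) (i : Fin N) : |spin σ i| = 1 := by
  unfold spin; split <;> simp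

lemma sum_sq_rotSpin (U : ON N) (σ : Fin N → Bool) : ∑ p, rotSpin U σ p ^ 2 = N := sum_sq_spin U σ

lemma abs_rotSpin_le (U : ON N) (σ : Fin N → Bool) (p : Fin N) :
    |rotSpin U σ p| ≤ (N : ℝ) + 1 := by
  have h1 : rotSpin U σ p ^ 2 ≤ N := (single_le_sum (f := fun p => rotSpin U σ p ^ 2)
    (fun _ _ => sq_nonneg _) (mem_univ p)).trans (sum_sq_rotSpin U σ).le
  have : (0:ℝ) ≤ N := Nat.cast_nonneg N
  exact abs_le_of_sq_le_sq (by nlinarith) (by positivity)

/-- An orthogonal matrix preserves the sum of squares. -/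
lemma sum_sq_orth (U : ON N) (g : Fin N → ℝ) :
    ∑ p, (∑ i, (U : Matrix (Fin N) (Fin N) ℝ) p i * g i) ^ 2 = ∑ i, g i ^ 2 := by
  have hU := (mem_orthogonalGroup_iff' (n := Fin N) (R := ℝ)).1 U.2
  have h : ((U : Matrix (Fin N) (Fin N) ℝ) *ᵥ g) ⬝ᵥ ((U : Matrix (Fin N) (Fin N) ℝ) *ᵥ g) =
      g ⬝ᵥ g := by
    rw [Matrix.dotProduct_mulVec, ← Matrix.mulVec_transpose, Matrix.mulVec_mulVec, hU,
      Matrix.one_mulVec]
  simpa [dotProduct, Matrix.mulVec, sq] using h

lemma continuous_U_apply (p i : Fin N) :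
    Continuous fun U : ON N => (U : Matrix (Fin N) (Fin N) ℝ) p i :=
  continuous_subtype_val.matrix_elem p i

lemma continuous_rotSpin (σ : Fin N → Bool) : Continuous fun U : ON N => rotSpin U σ := by
  refine continuous_pi fun p => ?_
  simp only [rotSpin, Matrix.mulVec, dotProduct]
  exact continuous_finsetSum _ fun i _ => (continuous_U_apply p i).mul continuous_const

section params

variable {T : Type} [TopologicalSpace T] {lam : T → Fin N → ℝ} {S V : T → ℕ → Fin N → ℝ}
  {U : T → ON N} (hlam : Continuous lam) (hS : Continuous S) (hV : Continuous V)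
  (hU : Continuous U)

include hS hV in
lemma continuous_glassAmp : Continuous fun t => glassAmp (S t) (V t) := by
  refine continuous_pi fun l => continuous_pi fun i => ?_
  rcases i with i | p
  · exact (continuous_apply i).comp ((continuous_apply l).comp hS)
  · exact (continuous_apply p).comp ((continuous_apply l).comp hV)

include hlam hU in
lemma continuous_gC : Continuous fun t => gC (lam t) (U t) := by
  refine continuous_pi fun σ => continuous_const.mul ?_
  exact continuous_finsetSum _ fun l _ => ((continuous_apply l).comp hlam).mul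
    (((continuous_apply l).comp ((continuous_rotSpin σ).comp hU)).pow 2)

include hU in
lemma continuous_gA : Continuous fun t => gA (U t) := by
  refine continuous_pi fun σ => continuous_pi fun i => ?_
  rcases i with i | p
  · exact continuous_const
  · exact (continuous_apply p).comp ((continuous_rotSpin σ).comp hU)

variable [FirstCountableTopology T] (K : ℕ)

include hlam hS hV hU in
lemma continuous_glass_root :
    Continuous fun t => (glassNest K (S t) (V t)).root (wVal (gB N) (gC (lam t) (U t)) (gA (U t))) :=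
  Lin.continuous_root gB_pos (N := glassNest K (fun _ _ => 0) (fun _ _ => 0))
    (continuous_glassAmp hS hV) (continuous_gC hlam hU) (continuous_gA hU)

include hlam hS hV hU in
lemma continuous_glass_heatTop (i : FIdx N) :
    Continuous fun t => (glassNest K (S t) (V t)).heatTop (glassLeaf (U t))
      (quadLaw (lam t) (U t)) i := by
  simp only [glassLeaf_eq, quadLaw_eq]
  exact Lin.continuous_heatTop gB_pos (N := glassNest K (fun _ _ => 0) (fun _ _ => 0))
    (continuous_glassAmp hS hV) (continuous_gC hlam hU) (continuous_gA hU)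
    ⟨(gridX_facts K).1, (gridX_facts K).2.1, fun l h _ => (gridX_facts K).2.2.1 l h,
      fun l _ => (gridX_facts K).2.2.2.1 l⟩ i

include hlam hS hV hU in
lemma continuous_glass_sqGrad {l : ℕ} (hl : l ≤ K + 1) (i : FIdx N) :
    Continuous fun t => (glassNest K (S t) (V t)).sqGrad (glassLeaf (U t))
      (quadLaw (lam t) (U t)) l i := by
  simp only [glassLeaf_eq, quadLaw_eq]
  exact Lin.continuous_sqGrad gB_pos (N := glassNest K (fun _ _ => 0) (fun _ _ => 0))
    (continuous_glassAmp hS hV) (continuous_gC hlam hU) (continuous_gA hU)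
    ⟨(gridX_facts K).1, (gridX_facts K).2.1, fun l h _ => (gridX_facts K).2.2.1 l h,
      fun l _ => (gridX_facts K).2.2.2.1 l⟩ hl i

include hlam hS hV hU in
lemma continuous_glass_ampTail {l : ℕ} (i : FIdx N) :
    Continuous fun t => ampTail (glassNest K (S t) (V t)) (glassLeaf (U t))
      (quadLaw (lam t) (U t)) l i :=
  (continuous_glass_heatTop hlam hS hV hU K i).sub (continuous_finsetSum (Icc l (K + 1))
    fun j (hj : j ∈ Icc l (K + 1)) =>
      (continuous_const (y := (glassNest (N := N) K (fun _ _ => 0) fun _ _ => 0).w j)).mul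
        (continuous_glass_sqGrad hlam hS hV hU K (mem_Icc.1 hj).2 i))

end params

instance : FirstCountableTopology (ON N) := by
  have : FirstCountableTopology (Matrix (Fin N) (Fin N) ℝ) :=
    inferInstanceAs (FirstCountableTopology (Fin N → Fin N → ℝ))
  exact Topology.IsInducing.subtypeVal.firstCountableTopology

end Lin

open Lin

theorem glassLeaf_good (U : ON N) : (glassLeaf U).Good ((N : ℝ) + 1) :=
  linLeaf_good (A := gA U) (by simp) fun σ i => by
    rcases i with i | p
    · simp [gA, abs_spin_le]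
    · exact abs_rotSpin_le U σ p

theorem extLeaf_good (U : ON N) : (extLeaf m U).Good ((N : ℝ) + 1) :=
  linLeaf_good (A := eA m U) (by simp) fun ω i => by
    rcases i with (i | p) | j
    · simp [eA, gA, abs_spin_le]
    · exact abs_rotSpin_le U ω.1 p
    · simp [eA, abs_spin_le]

theorem glassNest_good (K : ℕ) (S V : ℕ → Fin N → ℝ) : (glassNest K S V).Good :=
  ⟨(gridX_facts K).1, (gridX_facts K).2.1, fun l h _ => (gridX_facts K).2.2.1 l h,
    fun l _ => (gridX_facts K).2.2.2.1 l⟩

theorem extNest_good (K : ℕ) (S V : ℕ → Fin N → ℝ) (e : ℕ → Fin m → ℝ) :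
    (extNest K S V e).Good :=
  ⟨(gridX_facts K).1, (gridX_facts K).2.1, fun l h _ => (gridX_facts K).2.2.1 l h,
    fun l _ => (gridX_facts K).2.2.2.1 l⟩

theorem quadLaw_prob (lam : Fin N → ℝ) (U : ON N) : IsProbabilityMeasure (quadLaw lam U) := by
  rw [quadLaw_eq]; exact wLaw_prob gB_pos _

theorem extLaw_prob (lam : Fin N → ℝ) (Φ : (Fin m → Bool) → (Fin N → ℝ) → ℝ) (U : ON N) :
    IsProbabilityMeasure (extLaw lam Φ U) := by
  rw [extLaw_eq]; exact wLaw_prob eB_pos _

theorem curvLower_glass (U : ON N) (S : Finset (FIdx N)) : (glassLeaf U).CurvLower S 0 :=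
  curvLower_linLeaf (gA U) S

theorem curvLower_ext (U : ON N) (S : Finset (FIdx N ⊕ Fin m)) :
    (extLeaf m U).CurvLower S 0 :=
  curvLower_linLeaf (eA m U) S

namespace Lin

lemma glassFree_eq (K : ℕ) (lam : Fin N → ℝ) (S V : ℕ → Fin N → ℝ) (U : ON N) :
    glassFree K lam S V U = (glassNest K S V).root (wVal (gB N) (gC lam U) (gA U)) := by
  rw [glassFree, quadPart_eq, quadLaw_eq, glassLeaf_eq,
    free_eq_root gB_pos (glassNest_good K S V)]

lemma extFree_eq (K : ℕ) (lam : Fin N → ℝ) (S V : ℕ → Fin N → ℝ) (e : ℕ → Fin m → ℝ)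
    (Φ : (Fin m → Bool) → (Fin N → ℝ) → ℝ) (U : ON N) :
    extFree K lam S V e Φ U =
      (extNest K S V e).root (wVal (eB N m) (eC lam Φ U) (eA m U)) :=
  free_eq_root eB_pos (extNest_good K S V e) (eA m U) (eC lam Φ U)

end Lin

/-- The rotation preserves the length of the gradient. -/
theorem sum_grad_rot (K : ℕ) (lam : Fin N → ℝ) (S V : ℕ → Fin N → ℝ) (U : ON N) {l : ℕ}
    (hl : l ≤ K + 1) (y : FIdx N → ℝ) :
    ∑ p, (glassNest K S V).grad (glassLeaf U) (quadLaw lam U) l (Sum.inr p) y ^ 2 =
      ∑ i, (glassNest K S V).grad (glassLeaf U) (quadLaw lam U) l (Sum.inl i) y ^ 2 := by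
  have := quadLaw_prob lam U
  have hN := glassNest_good K S V
  have hL := glassLeaf_good U
  have h : ∀ p, (glassNest K S V).grad (glassLeaf U) (quadLaw lam U) l (Sum.inr p) y =
      ∑ i, (U : Matrix (Fin N) (Fin N) ℝ) p i *
        (glassNest K S V).grad (glassLeaf U) (quadLaw lam U) l (Sum.inl i) y := by
    intro p
    have e : (glassLeaf U).vec (Sum.inr p) = fun σ y' => ∑ i, (U : Matrix (Fin N) (Fin N) ℝ) p i *
        (glassLeaf U).vec (Sum.inl i) σ y' := by
      funext σ y'
      simp [glassLeaf_eq, vec_linLeaf, gA, rotSpin, Matrix.mulVec, dotProduct]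
    simp only [Nest.grad]
    rw [e, node_sum hN hL (show l ≤ (glassNest K S V).K from hl) univ
      fun i => (obs_const _).mul (obs_vec hL (Sum.inl i))]
    exact sum_congr rfl fun i _ => node_const_mul hN hL l _ _ y
  simp only [h]
  exact sum_sq_orth U _

theorem sum_heatTop (K : ℕ) (lam : Fin N → ℝ) (S V : ℕ → Fin N → ℝ) (U : ON N) :
    (∑ p, (glassNest K S V).heatTop (glassLeaf U) (quadLaw lam U) (Sum.inr p) = N) ∧
      ∀ i, (glassNest K S V).heatTop (glassLeaf U) (quadLaw lam U) (Sum.inl i) = 1 := by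
  have hN := glassNest_good K S V
  rw [glassLeaf_eq, quadLaw_eq]
  simp only [heatTop_wLaw gB_pos hN]
  have hU := linGrowth_wVal gB_pos (gA U) (gC lam U)
  constructor
  · rw [← Lin.mean_sum hU le_rfl univ fun p => tame_wAvg gB_pos _ _ _]
    have e : ∀ y, ∑ p, wAvg (gB N) (gC lam U) (gA U) (fun σ => gA U σ (Sum.inr p) ^ 2) y = N := by
      intro y
      simp only [wAvg]
      rw [← sum_div, sum_comm]
      simp only [← mul_sum, gA, Sum.elim_inr, sum_sq_rotSpin, ← sum_mul]
      exact mul_div_cancel_left₀ _ (sum_pos' gB_pos _).ne'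
    simp only [e]
    exact Lin.mean_const hU _ _
  · intro i
    have e : (fun σ => gA U σ (Sum.inl i) ^ 2) = fun _ => (1:ℝ) := funext fun σ => by
      rw [← sq_abs]; simp [gA, abs_spin_le]
    rw [e, show wAvg (gB N) (gC lam U) (gA U) (fun _ => (1:ℝ)) = fun _ => 1 from
      funext (wAvg_const gB_pos _ 1)]
    exact Lin.mean_const hU _ _

theorem ampTail_mem (K : ℕ) (lam : Fin N → ℝ) (S V : ℕ → Fin N → ℝ) (U : ON N) {l : ℕ}
    (hl : l ≤ K + 1) (i : FIdx N) :
    0 ≤ ampTail (glassNest K S V) (glassLeaf U) (quadLaw lam U) l i ∧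
      ampTail (glassNest K S V) (glassLeaf U) (quadLaw lam U) l i ≤
        (glassNest K S V).heatTop (glassLeaf U) (quadLaw lam U) i := by
  rw [glassLeaf_eq, quadLaw_eq]
  exact ampTail_bounds gB_pos (glassNest_good K S V) _ _ hl i

theorem continuous_glassFree (K : ℕ) :
    Continuous fun x : (Fin N → ℝ) × (ℕ → Fin N → ℝ) × (ℕ → Fin N → ℝ) × ON N =>
      glassFree K x.1 x.2.1 x.2.2.1 x.2.2.2 := by
  simp only [glassFree_eq]
  exact continuous_glass_root continuous_fst (continuous_fst.comp continuous_snd)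
    (continuous_fst.comp (continuous_snd.comp continuous_snd))
    (continuous_snd.comp (continuous_snd.comp continuous_snd)) K

theorem continuous_extFree (K : ℕ) (lam : Fin N → ℝ) (S V : ℕ → Fin N → ℝ) (e : ℕ → Fin m → ℝ)
    {Φ : (Fin m → Bool) → (Fin N → ℝ) → ℝ} (hΦ : ∀ τ, Continuous (Φ τ)) :
    Continuous (extFree K lam S V e Φ) := by
  refine (Lin.continuous_root (eB_pos (N := N) (m := m)) (T := ON N) (N := extNest K S V e)
    (amp := fun _ => (extNest K S V e).amp) (c := fun U => eC lam Φ U) (A := fun U => eA m U)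
    continuous_const (continuous_pi fun ω => ?_) (continuous_pi fun ω => continuous_pi fun i => ?_)
    ).congr fun U => (extFree_eq K lam S V e Φ U).symm
  · exact ((continuous_apply ω.1).comp
      (continuous_gC (continuous_const (y := lam)) continuous_id)).add
        ((hΦ ω.2).comp (continuous_rotSpin ω.1))
  · rcases i with (i | p) | j
    · exact continuous_const
    · exact (continuous_apply p).comp (continuous_rotSpin ω.1)
    · exact continuous_const

/-- Joint convexity in the eigenvalues and all amplitudes. -/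
theorem glassFree_convex (K : ℕ) (U : ON N) :
    ConvexOn ℝ Set.univ fun x : (Fin N → ℝ) × (ℕ → Fin N → ℝ) × (ℕ → Fin N → ℝ) =>
      glassFree K x.1 x.2.1 x.2.2 U := by
  let Ψ : ((Fin N → ℝ) × (ℕ → Fin N → ℝ) × (ℕ → Fin N → ℝ)) →ₗ[ℝ]
      ((Fin N → Bool) → ℝ) × (ℕ → FIdx N → ℝ) :=
    { toFun := fun x => (gC x.1 U, glassAmp x.2.1 x.2.2)
      map_add' := fun x y => by
        refine Prod.ext (funext fun σ => ?_) (funext fun l => funext fun i => ?_)
        · simp [gC, eng, add_mul, sum_add_distrib, mul_add]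
        · cases i <;> simp [glassAmp]
      map_smul' := fun r x => by
        refine Prod.ext (funext fun σ => ?_) (funext fun l => funext fun i => ?_)
        · simp [gC, eng, mul_sum, mul_assoc]
          exact sum_congr rfl fun _ _ => by ring
        · cases i <;> simp [glassAmp] }
  have h := (root_convex gB_pos (glassNest_good K (fun _ _ => 0) fun _ _ => 0) (gA U)).comp_linearMap Ψ
  simp only [Set.preimage_univ] at h
  simp only [glassFree_eq]
  exact h

/-- The same with extra spins and a multiple of a coupling. -/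
theorem extFree_convex (K : ℕ) (Φ : (Fin m → Bool) → (Fin N → ℝ) → ℝ) (U : ON N) :
    ConvexOn ℝ Set.univ
      fun x : (Fin N → ℝ) × (ℕ → Fin N → ℝ) × (ℕ → Fin N → ℝ) × (ℕ → Fin m → ℝ) × ℝ =>
        extFree K x.1 x.2.1 x.2.2.1 x.2.2.2.1 (fun τ z => x.2.2.2.2 * Φ τ z) U := by
  let Ψ : ((Fin N → ℝ) × (ℕ → Fin N → ℝ) × (ℕ → Fin N → ℝ) × (ℕ → Fin m → ℝ) × ℝ) →ₗ[ℝ]
      ((Fin N → Bool) × (Fin m → Bool) → ℝ) × (ℕ → FIdx N ⊕ Fin m → ℝ) :=
    { toFun := fun x => (eC x.1 (fun τ z => x.2.2.2.2 * Φ τ z) U,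
        fun l => Sum.elim (glassAmp x.2.1 x.2.2.1 l) (x.2.2.2.1 l))
      map_add' := fun x y => by
        refine Prod.ext (funext fun σ => ?_) (funext fun l => funext fun i => ?_)
        · simp [eC, eng, add_mul, sum_add_distrib, mul_add]
          ring
        · rcases i with (i | p) | j <;> simp [glassAmp]
      map_smul' := fun r x => by
        refine Prod.ext (funext fun σ => ?_) (funext fun l => funext fun i => ?_)
        · simp [eC, eng, mul_sum, mul_assoc, mul_add]
          exact sum_congr rfl fun _ _ => by ring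
        · rcases i with (i | p) | j <;> simp [glassAmp] }
  have h := (root_convex eB_pos (extNest_good K (fun _ _ => 0) (fun _ _ => 0) fun _ (_ : Fin m) => 0)
    (eA m U)).comp_linearMap Ψ
  simp only [Set.preimage_univ] at h
  simp only [extFree_eq]
  exact h

theorem hasDerivAt_glassFree (K : ℕ) (lam dlam : Fin N → ℝ) (S dS V dV : ℕ → Fin N → ℝ) (U : ON N) :
    HasDerivAt (fun t : ℝ => glassFree K (fun p => lam p + t * dlam p)
        (fun l p => S l p + t * dS l p) (fun l p => V l p + t * dV l p) U)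
      (1 / 2 * ∑ p, dlam p * (glassNest K S V).heatTop (glassLeaf U) (quadLaw lam U) (Sum.inr p) +
        ∑ l ∈ range (K + 2), ∑ p,
          (dS l p * S l p * ampTail (glassNest K S V) (glassLeaf U) (quadLaw lam U) l (Sum.inl p) +
            dV l p * V l p *
              ampTail (glassNest K S V) (glassLeaf U) (quadLaw lam U) l (Sum.inr p))) 0 := by
  have hN := glassNest_good K S V
  have h := hasDerivAt_root gB_pos hN (gA U) (gC lam U)
    (fun σ => 1 / 2 * ∑ p, dlam p * rotSpin U σ p ^ 2) (glassAmp dS dV)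
  simp only [glassLeaf_eq, quadLaw_eq, heatTop_wLaw gB_pos hN]
  refine (h.congr_deriv ?_).congr_of_eventuallyEq (.of_forall fun t => ?_)
  · have hU := linGrowth_wVal gB_pos (gA U) (gC lam U)
    congr 1
    · rw [mul_sum]
      simp only [← Lin.mean_const_mul]
      rw [← Lin.mean_sum hU le_rfl univ fun p => ((tame_wAvg gB_pos _ _ _).const_mul _).const_mul _]
      congr 1
      funext y
      simp only [wAvg, mul_div_assoc', mul_sum, sum_div]
      rw [sum_comm]
      exact sum_congr rfl fun p _ => sum_congr rfl fun σ _ => by simp [gA]; ring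
    · refine sum_congr rfl fun l _ => ?_
      rw [Fintype.sum_sum_type, ← sum_add_distrib]
      rfl
  · simp only [glassFree_eq]
    have e1 : glassNest K (fun l p => S l p + t * dS l p) (fun l p => V l p + t * dV l p) =
        (glassNest K S V).setAmp fun l i => (glassNest K S V).amp l i + t * glassAmp dS dV l i := by
      simp only [glassNest, Nest.setAmp, Nest.mk.injEq, true_and]
      funext l i
      cases i <;> rfl
    have e2 : gC (fun p => lam p + t * dlam p) U =
        fun σ => gC lam U σ + t * (1 / 2 * ∑ p, dlam p * rotSpin U σ p ^ 2) := by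
      funext σ
      simp only [gC, eng, mul_sum, ← sum_add_distrib]
      exact sum_congr rfl fun p _ => by rw [rotSpin]; ring
    rw [e1, e2]

theorem hasDerivAt_extFree (K : ℕ) (lam dlam : Fin N → ℝ) (S dS V dV : ℕ → Fin N → ℝ)
    (e de : ℕ → Fin m → ℝ) (Φ : (Fin m → Bool) → (Fin N → ℝ) → ℝ) (c dc : ℝ) (U : ON N) :
    HasDerivAt (fun t : ℝ => extFree K (fun p => lam p + t * dlam p)
        (fun l p => S l p + t * dS l p) (fun l p => V l p + t * dV l p)
        (fun l i => e l i + t * de l i) (fun τ z => (c + t * dc) * Φ τ z) U)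
      (1 / 2 * ∑ p, dlam p * (extNest K S V e).heatTop (extLeaf m U)
          (extLaw lam (fun τ z => c * Φ τ z) U) (Sum.inl (Sum.inr p)) +
        dc * (extNest K S V e).mean ((extLeaf m U).logZ (extLaw lam (fun τ z => c * Φ τ z) U)) (K + 1)
          ((extLeaf m U).gibbs (extLaw lam (fun τ z => c * Φ τ z) U)
            fun ω _ => Φ ω.2 (rotSpin U ω.1)) +
        ∑ l ∈ range (K + 2), ((∑ p,
          (dS l p * S l p * ampTail (extNest K S V e) (extLeaf m U)
              (extLaw lam (fun τ z => c * Φ τ z) U) l (Sum.inl (Sum.inl p)) +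
            dV l p * V l p * ampTail (extNest K S V e) (extLeaf m U)
              (extLaw lam (fun τ z => c * Φ τ z) U) l (Sum.inl (Sum.inr p)))) +
          ∑ i, de l i * e l i * ampTail (extNest K S V e) (extLeaf m U)
              (extLaw lam (fun τ z => c * Φ τ z) U) l (Sum.inr i))) 0 := by
  have hN := extNest_good K S V e
  set Φc := fun τ z => c * Φ τ z
  have h := hasDerivAt_root eB_pos hN (eA m U) (eC lam Φc U)
    (fun ω => 1 / 2 * ∑ p, dlam p * rotSpin U ω.1 p ^ 2 + dc * Φ ω.2 (rotSpin U ω.1))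
    (fun l => Sum.elim (glassAmp dS dV l) (de l))
  simp only [extLeaf_eq, extLaw_eq, heatTop_wLaw eB_pos hN]
  refine (h.congr_deriv ?_).congr_of_eventuallyEq (.of_forall fun t => ?_)
  · have hU := linGrowth_wVal eB_pos (eA m U) (eC lam Φc U)
    congr 1
    · rw [show ((linLeaf (eA m U)).gibbs (wLaw (eB N m) (eC lam Φc U))
          fun ω _ => Φ ω.2 (rotSpin U ω.1)) = wAvg (eB N m) (eC lam Φc U) (eA m U)
            fun ω => Φ ω.2 (rotSpin U ω.1) from funext fun y => gibbs_wLaw eB_pos _ _ _ y,
        ← mean_logZ eB_pos hN (eA m U) (eC lam Φc U) (l := K + 1) le_rfl, mul_sum]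
      simp only [← Lin.mean_const_mul]
      rw [← Lin.mean_sum hU le_rfl univ fun p => ((tame_wAvg eB_pos _ _ _).const_mul _).const_mul _,
        show (extNest K S V e).K = K + 1 from rfl,
        ← Lin.mean_add hU (show K + 1 ≤ (extNest K S V e).K from le_rfl)
          (tame_sum _ fun p _ => ((tame_wAvg eB_pos _ _ _).const_mul _).const_mul _)
          ((tame_wAvg eB_pos _ _ _).const_mul _)]
      congr 1
      funext y
      simp only [wAvg, mul_div_assoc', mul_sum, sum_div, mul_add, add_div, sum_add_distrib]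
      rw [sum_comm]
      congr 1
      · exact sum_congr rfl fun p _ => sum_congr rfl fun σ _ => by simp [eA, gA]; ring
      · exact sum_congr rfl fun σ _ => by ring
    · refine sum_congr rfl fun l _ => ?_
      rw [Fintype.sum_sum_type, Fintype.sum_sum_type, ← sum_add_distrib]
      rfl
  · simp only [extFree_eq]
    have e1 : extNest K (fun l p => S l p + t * dS l p) (fun l p => V l p + t * dV l p)
          (fun l i => e l i + t * de l i) =
        (extNest K S V e).setAmp fun l i =>
          (extNest K S V e).amp l i + t * Sum.elim (glassAmp dS dV l) (de l) i := by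
      simp only [extNest, Nest.setAmp, Nest.mk.injEq, true_and]
      funext l i
      rcases i with (i | p) | j <;> rfl
    have e2 : eC (fun p => lam p + t * dlam p) (fun τ z => (c + t * dc) * Φ τ z) U =
        fun ω => eC lam Φc U ω +
          t * (1 / 2 * ∑ p, dlam p * rotSpin U ω.1 p ^ 2 + dc * Φ ω.2 (rotSpin U ω.1)) := by
      funext ω
      simp only [eC, eng, Φc, rotSpin, mul_sum, add_mul, mul_add, sum_add_distrib]
      rw [sum_congr rfl fun (i : Fin N) _ => show 1 / 2 * (t * dlam i *
          ((U : Matrix (Fin N) (Fin N) ℝ) *ᵥ spin ω.1) i ^ 2) = t * (1 / 2 * (dlam i *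
          ((U : Matrix (Fin N) (Fin N) ℝ) *ᵥ spin ω.1) i ^ 2)) by ring]
      ring
    rw [e1, e2]

theorem extFree_zero (K : ℕ) (lam : Fin N → ℝ) (S V : ℕ → Fin N → ℝ) (e : ℕ → Fin m → ℝ)
    (U : ON N) :
    extFree K lam S V e (fun _ _ => 0) U =
      glassFree K lam S V U + ∑ i, oneSpin K (fun l => e l i) := by
  have := extLaw_prob lam (fun (_ : Fin m → Bool) _ => (0:ℝ)) U
  have := quadLaw_prob lam U
  have hbm : ∀ _τ : Fin m → Bool, 0 < 1 / (2 : ℝ) ^ m := fun _ => by positivity
  have := wLaw_prob hbm fun _ => 0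
  let N₂ : Nest (Fin m) := ⟨K + 1, gridX K, e⟩
  have hsplit : ∀ (F : (Fin N → Bool) → ℝ) (G : (Fin m → Bool) → ℝ),
      (∑ ω : (Fin N → Bool) × (Fin m → Bool), eB N m ω * Real.exp (F ω.1 + G ω.2)) =
        (∑ σ, gB N σ * Real.exp (F σ)) * ∑ τ, 1 / (2 : ℝ) ^ m * Real.exp (G τ) := by
    intro F G
    rw [sum_mul_sum, Fintype.sum_prod_type]
    exact sum_congr rfl fun σ _ => sum_congr rfl fun τ _ => by
      simp only [eB, gB, Real.exp_add]; ring
  have hpart : extPart lam (fun (_ : Fin m → Bool) _ => (0:ℝ)) U = quadPart lam U := by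
    rw [quadPart_eq, show extPart lam (fun (_ : Fin m → Bool) _ => (0:ℝ)) U =
      wSum (eB N m) (eC lam (fun _ _ => 0) U) from rfl]
    refine (hsplit (gC lam U) fun _ => 0).trans ?_
    simp [wSum, Fintype.card_pi]
  have hfree := free_add (N := extNest K S V e) (L := extLeaf m U)
    (μ := extLaw lam (fun (_ : Fin m → Bool) _ => (0:ℝ)) U) (extNest_good K S V e) (extLeaf_good U)
    (N₁ := glassNest K S V) (N₂ := N₂) (μ₁ := quadLaw lam U)
    (L₂ := linLeaf fun τ : Fin m → Bool => spin τ)
    (μ₂ := wLaw (fun _ => 1 / (2 : ℝ) ^ m) fun _ => 0)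
    (glassLeaf_good U) (linLeaf_good' _) Function.Embedding.inl Function.Embedding.inr
    (fun i j => Sum.inl_ne_inr) rfl rfl rfl rfl (fun _ _ => rfl) (fun _ _ => rfl) fun y _ => ?_
  · rw [extFree, glassFree, hpart, hfree, add_assoc]
    congr 2
    exact free_spins m N₂ _ _ ⟨(gridX_facts K).1, (gridX_facts K).2.1,
      fun l h _ => (gridX_facts K).2.2.1 l h, fun l _ => (gridX_facts K).2.2.2.1 l⟩
      (linLeaf_good' _) (Function.Embedding.refl _) fun y _ => logZ_tau m y
  · have h1 := logZ_wLaw eB_pos (eA m U) (eC lam (fun (_ : Fin m → Bool) _ => (0:ℝ)) U) y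
    have h2 := logZ_wLaw gB_pos (gA U) (gC lam U) fun i => y (Sum.inl i)
    rw [← extLeaf_eq, ← extLaw_eq, show wSum (eB N m) (eC lam (fun _ _ => 0) U) = quadPart lam U
      from hpart] at h1
    rw [← glassLeaf_eq, ← quadLaw_eq, ← quadPart_eq] at h2
    rw [logZ_tau]
    have h3 : wVal (eB N m) (eC lam (fun (_ : Fin m → Bool) _ => (0:ℝ)) U) (eA m U) y =
        wVal (gB N) (gC lam U) (gA U) (fun i => y (Sum.inl i)) +
          ∑ i, Real.log (Real.cosh (y (Sum.inr i))) := by
      rw [← Real.log_prod fun i _ => (Real.cosh_pos _).ne', ← sum_spins, wVal, wVal,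
        ← Real.log_mul (sum_pos' gB_pos _).ne' (sum_pos (fun τ _ => by positivity) univ_nonempty).ne',
        ← hsplit]
      congr 1
      refine sum_congr rfl fun ω _ => ?_
      simp only [eC, gC, eA, Fintype.sum_sum_type, Sum.elim_inl, Sum.elim_inr]
      ring_nf
    show (extLeaf m U).logZ _ y = (glassLeaf U).logZ (quadLaw lam U) (fun i => y (Sum.inl i)) +
      ∑ i, Real.log (Real.cosh (y (Sum.inr i)))
    linarith

end Vale.Agent.P166.Parisi
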