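import Vale.Agent.P166.Parisi.Sys
import Vale.Agent.P166.Parisi.Param
import Vale.Agent.P157.Parisi.CalcAmp

/-!
Systems with finitely many configurations and a linear Hamiltonian: the leaf, the free energy as a
function of weights and amplitudes, its convexity, continuity and derivative.
-/

set_option linter.unusedSectionVars false

namespace Vale.Agent.P166.Parisi.Lin

open MeasureTheory ProbabilityTheory Finset Filter Topology
open Vale.Agent.P157 Vale.Agent.P157.Parisi

/-! ### The recursion from a general leaf function -/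

section recursion

variable {ι : Type} [Fintype ι] {N : Nest ι} {U U' : (ι → ℝ) → ℝ}

lemma good_setAmp (hN : N.Good) (a : ℕ → ι → ℝ) : (N.setAmp a).Good :=
  ⟨hN.x_zero, hN.x_last, hN.x_pos, hN.x_mono⟩

lemma linGrowth_u (N : Nest ι) (hU : LinGrowth U) (l : ℕ) : LinGrowth (N.u U l) := by
  suffices h : ∀ d l, N.K - l = d → LinGrowth (N.u U l) from h _ l rfl
  intro d
  induction d with
  | zero => intro l hl; rw [u_top (by omega)]; exact hU
  | succ d ih =>
    intro l hl
    rw [u_succ (by omega)]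
    exact linGrowth_stepLog (ih (l + 1) (by omega)) _ _

lemma integrable_scale {f : (ι → ℝ) → ℝ} (hf : Tame f) (a : ι → ℝ) :
    Integrable (fun z => f fun i => a i * z i) (gauss ι) := by
  convert (hf.comp_move a 0).integrable using 3 with z
  funext i
  simp [move]

lemma root_eq (N : Nest ι) (U : (ι → ℝ) → ℝ) :
    N.root U = ∫ z, N.u U 0 (fun i => N.amp 0 i * z i) ∂gauss ι := rfl

lemma root_le_add (hN : N.Good) (hU : LinGrowth U) (hU' : LinGrowth U') {c : ℝ}
    (h : ∀ y, U y ≤ U' y + c) : N.root U ≤ N.root U' + c := by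
  have key : ∀ l, l ≤ N.K → ∀ y, N.u U l y ≤ N.u U' l y + c := by
    intro l hl
    induction hl using Nat.decreasingInduction with
    | self => simp only [u_top le_rfl]; exact h
    | of_succ l hl ih =>
      intro y
      have hx := hN.x_pos (l + 1) (by omega) (by omega)
      have h' := linGrowth_u N hU' (l + 1)
      rw [u_succ hl, u_succ hl]
      simp only [stepLog]
      have h1 : ∫ z, Real.exp (N.x (l + 1) * N.u U (l + 1) (move (N.amp (l + 1)) y z)) ∂gauss ι ≤
          Real.exp (N.x (l + 1) * c) *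
            ∫ z, Real.exp (N.x (l + 1) * N.u U' (l + 1) (move (N.amp (l + 1)) y z)) ∂gauss ι := by
        rw [← integral_const_mul]
        refine integral_mono (integrable_exp_move (linGrowth_u N hU (l + 1)) _ _ y)
          ((integrable_exp_move h' _ _ y).const_mul _) fun z => ?_
        rw [← Real.exp_add, ← mul_add]
        exact Real.exp_le_exp.2 (mul_le_mul_of_nonneg_left (by linarith [ih (move (N.amp (l + 1)) y z)]) hx.le)
      have h2 := Real.log_le_log (stepDen_pos (linGrowth_u N hU (l + 1)) _ _ y) h1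
      rw [Real.log_mul (Real.exp_ne_zero _) (stepDen_pos h' _ _ y).ne', Real.log_exp] at h2
      rw [inv_mul_le_iff₀ hx, mul_add, mul_inv_cancel_left₀ hx.ne']
      linarith
  rw [root_eq, root_eq]
  refine (integral_mono (integrable_scale (linGrowth_u N hU 0).tame _)
    ((integrable_scale (linGrowth_u N hU' 0).tame _).add (integrable_const c))
    fun z => key 0 (Nat.zero_le _) _).trans_eq ?_
  simp only [Pi.add_apply]
  rw [integral_add (integrable_scale (linGrowth_u N hU' 0).tame _) (integrable_const c)]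
  simp

lemma root_add_const (hN : N.Good) (hU : LinGrowth U) (c : ℝ) :
    N.root (fun v => U v + c) = N.root U + c := by
  have hU' : LinGrowth fun v => U v + c := by
    obtain ⟨hc, C, k, hC, hk, h⟩ := hU
    exact ⟨hc.add continuous_const, C + |c|, k, by positivity, hk, fun y =>
      (abs_add_le _ _).trans (by linarith [h y])⟩
  refine le_antisymm (root_le_add hN hU' hU fun y => le_rfl) ?_
  have := root_le_add hN hU hU' (c := -c) fun y => by simp
  linarith

/-- With vanishing amplitudes the root is the value at the origin. -/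
lemma root_zero_amp (hN : N.Good) (U : (ι → ℝ) → ℝ) (h : ∀ l, l ≤ N.K → ∀ i, N.amp l i = 0) :
    N.root U = U 0 := by
  have key : ∀ l, l ≤ N.K → N.u U l = U := by
    intro l hl
    induction hl using Nat.decreasingInduction with
    | self => exact u_top le_rfl U
    | of_succ l hl ih =>
      funext y
      have hx := hN.x_pos (l + 1) (by omega) (by omega)
      have hmove : ∀ z, move (N.amp (l + 1)) y z = y := fun z => by
        funext i; simp [move, h (l + 1) hl i]
      rw [u_succ hl, ih]
      simp [stepLog, hmove, hx.ne']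
  rw [root_eq, key 0 (Nat.zero_le _)]
  simp [h 0 (Nat.zero_le _), Pi.zero_def]

lemma mean_add (hU : LinGrowth U) {l : ℕ} (hl : l ≤ N.K) {f g : (ι → ℝ) → ℝ} (hf : Tame f)
    (hg : Tame g) : N.mean U l (fun v => f v + g v) = N.mean U l f + N.mean U l g :=
  Param.mean_add' (fun m _ => linGrowth_u N hU m) hl hf hg

lemma mean_const_mul (l : ℕ) (c : ℝ) (f : (ι → ℝ) → ℝ) :
    N.mean U l (fun v => c * f v) = c * N.mean U l f :=
  Param.mean_const_mul' l c f

lemma avg_tame (hU : LinGrowth U) (l : ℕ) {f : (ι → ℝ) → ℝ} (hf : Tame f) :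
    Tame (N.avg U l f) := tame_stepAvg (linGrowth_u N hU (l + 1)) _ _ hf

lemma mean_const (hU : LinGrowth U) (l : ℕ) (c : ℝ) : N.mean U l (fun _ => c) = c := by
  induction l with
  | zero => simp [Nest.mean]
  | succ l ih =>
    simp only [Nest.mean]
    rw [show N.avg U l (fun _ => c) = fun _ => c from
      funext (stepAvg_const (linGrowth_u N hU (l + 1)) _ _ c)]
    exact ih

lemma mean_mono (hU : LinGrowth U) (l : ℕ) {f g : (ι → ℝ) → ℝ} (hf : Tame f) (hg : Tame g)
    (h : ∀ v, f v ≤ g v) : N.mean U l f ≤ N.mean U l g := by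
  induction l generalizing f g with
  | zero => exact integral_mono (integrable_scale hf _) (integrable_scale hg _) fun z => h _
  | succ l ih =>
    exact ih (avg_tame hU l hf) (avg_tame hU l hg)
      (stepAvg_mono (linGrowth_u N hU (l + 1)) _ _ hf hg h)

lemma mean_sum (hU : LinGrowth U) {l : ℕ} (hl : l ≤ N.K) {β : Type} (s : Finset β)
    {f : β → (ι → ℝ) → ℝ} (hf : ∀ b, Tame (f b)) :
    N.mean U l (fun y => ∑ b ∈ s, f b y) = ∑ b ∈ s, N.mean U l (f b) := by
  classical
  induction s using Finset.induction with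
  | empty => simpa using mean_const (N := N) hU l 0
  | insert a s ha ih =>
    simp only [sum_insert ha]
    rw [mean_add hU hl (hf a) (tame_sum s fun b _ => hf b), ih]

lemma avg_nonneg (l : ℕ) {f : (ι → ℝ) → ℝ} (h : ∀ v, 0 ≤ f v) (y : ι → ℝ) :
    0 ≤ N.avg U l f y :=
  div_nonneg (integral_nonneg fun z => mul_nonneg (Real.exp_pos _).le (h _))
    (integral_nonneg fun _ => (Real.exp_pos _).le)

lemma mean_nonneg (l : ℕ) {f : (ι → ℝ) → ℝ} (h : ∀ v, 0 ≤ f v) : 0 ≤ N.mean U l f := by
  induction l generalizing f with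
  | zero => exact integral_nonneg fun z => h _
  | succ l ih => exact ih fun y => avg_nonneg l h y

lemma integral_pos_of_pos {g : (ι → ℝ) → ℝ} (hg : Integrable g (gauss ι)) (h : ∀ z, 0 < g z) :
    0 < ∫ z, g z ∂gauss ι := by
  rw [integral_pos_iff_support_of_nonneg (fun z => (h z).le) hg,
    show Function.support g = Set.univ from Set.eq_univ_of_forall fun z => (h z).ne']
  simp

lemma mean_pos (hU : LinGrowth U) (l : ℕ) {f : (ι → ℝ) → ℝ} (hf : Tame f) (h : ∀ v, 0 < f v) :
    0 < N.mean U l f := by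
  induction l generalizing f with
  | zero => exact integral_pos_of_pos (integrable_scale hf _) fun z => h _
  | succ l ih =>
    refine ih (avg_tame hU l hf) fun y => ?_
    have hu := linGrowth_u N hU (l + 1)
    exact div_pos (integral_pos_of_pos
      (((hu.exp_tame (N.x (l + 1))).mul hf).comp_move (N.amp (l + 1)) y).integrable
        fun z => mul_pos (Real.exp_pos _) (h _))
      (stepDen_pos hu _ _ y)

lemma down_tame (hU : LinGrowth U) {l : ℕ} (hl : l ≤ N.K) {f : (ι → ℝ) → ℝ} (hf : Tame f) :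
    Tame (N.down U l f) := by
  induction hl using Nat.decreasingInduction with
  | self => rw [down_top le_rfl]; exact hf
  | of_succ l hl ih => rw [down_succ hl]; exact avg_tame hU l ih

lemma mean_down {l : ℕ} (hl : l ≤ N.K) (f : (ι → ℝ) → ℝ) :
    N.mean U l (N.down U l f) = N.mean U N.K f := by
  induction hl using Nat.decreasingInduction with
  | self => rw [down_top le_rfl]
  | of_succ l hl ih => rw [down_succ hl, ← ih]; rfl

end recursion

/-! ### Finite systems -/

variable {Ω ι : Type} [Fintype Ω] [Fintype ι]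

/-- The linear leaf with coefficients `A`. -/
def linLeaf (A : Ω → ι → ℝ) : Leaf Ω Unit ι where
  a ω _ := A ω
  φ _ z := z
  φ1 _ _ := 1
  φ2 _ _ := 0

/-- The total weight. -/
noncomputable def wSum (b c : Ω → ℝ) : ℝ := ∑ ω, b ω * Real.exp (c ω)

/-- The leaf function with the weights not normalised. -/
noncomputable def wVal (b c : Ω → ℝ) (A : Ω → ι → ℝ) (y : ι → ℝ) : ℝ :=
  Real.log (∑ ω, b ω * Real.exp (c ω + ∑ i, A ω i * y i))

/-- The average at the leaf. -/
noncomputable def wAvg (b c : Ω → ℝ) (A : Ω → ι → ℝ) (f : Ω → ℝ) (y : ι → ℝ) : ℝ :=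
  (∑ ω, b ω * Real.exp (c ω + ∑ i, A ω i * y i) * f ω) /
    ∑ ω, b ω * Real.exp (c ω + ∑ i, A ω i * y i)

section measure

variable [MeasurableSpace Ω]

/-- The law with the weights `b exp c`. -/
noncomputable def wLaw (b c : Ω → ℝ) : Measure Ω :=
  ∑ ω, ENNReal.ofReal (b ω * Real.exp (c ω) / wSum b c) • Measure.dirac ω

end measure

variable [Nonempty Ω] {b c : Ω → ℝ} (hb : ∀ ω, 0 < b ω)

include hb

lemma sum_pos' (h : Ω → ℝ) : 0 < ∑ ω, b ω * Real.exp (h ω) :=
  sum_pos (fun ω _ => mul_pos (hb ω) (Real.exp_pos _)) univ_nonempty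

lemma abs_log_sum_le {h : Ω → ℝ} {R : ℝ} (hR : ∀ ω, |h ω| ≤ R) :
    |Real.log (∑ ω, b ω * Real.exp (h ω))| ≤ |Real.log (∑ ω, b ω)| + R := by
  have hs : 0 < ∑ ω, b ω := sum_pos (fun ω _ => hb ω) univ_nonempty
  have h1 : (∑ ω, b ω) * Real.exp (-R) ≤ ∑ ω, b ω * Real.exp (h ω) := by
    rw [sum_mul]
    exact sum_le_sum fun ω _ =>
      mul_le_mul_of_nonneg_left (Real.exp_le_exp.2 (abs_le.1 (hR ω)).1) (hb ω).le
  have h2 : ∑ ω, b ω * Real.exp (h ω) ≤ (∑ ω, b ω) * Real.exp R := by
    rw [sum_mul]
    exact sum_le_sum fun ω _ =>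
      mul_le_mul_of_nonneg_left (Real.exp_le_exp.2 (abs_le.1 (hR ω)).2) (hb ω).le
  have e1 := Real.log_le_log (by positivity) h1
  have e2 := Real.log_le_log (sum_pos' hb h) h2
  rw [Real.log_mul hs.ne' (Real.exp_ne_zero _), Real.log_exp] at e1 e2
  rw [abs_le]
  constructor <;> linarith [le_abs_self (Real.log (∑ ω, b ω)), neg_abs_le (Real.log (∑ ω, b ω))]

lemma abs_wVal_le (A : Ω → ι → ℝ) (c : Ω → ℝ) (y : ι → ℝ) :
    |wVal b c A y| ≤ |Real.log (∑ ω, b ω)| + (∑ ω, |c ω|) + (∑ ω, ∑ i, |A ω i|) * l1 y := by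
  rw [add_assoc]
  refine abs_log_sum_le hb fun ω => (abs_add_le _ _).trans (add_le_add ?_ ?_)
  · exact single_le_sum (f := fun ω => |c ω|) (fun _ _ => abs_nonneg _) (mem_univ ω)
  · refine (abs_sum_le_sum_abs _ _).trans ?_
    calc ∑ i, |A ω i * y i| ≤ ∑ i, |A ω i| * l1 y := sum_le_sum fun i _ => by
          rw [abs_mul]; exact mul_le_mul_of_nonneg_left (abs_le_l1 y i) (abs_nonneg _)
      _ ≤ _ := by
          rw [← sum_mul]
          exact mul_le_mul_of_nonneg_right (single_le_sum (f := fun ω => ∑ i, |A ω i|)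
            (fun _ _ => sum_nonneg fun _ _ => abs_nonneg _) (mem_univ ω)) (l1_nonneg y)

lemma continuous_wVal {T : Type} [TopologicalSpace T] {c : T → Ω → ℝ} {A : T → Ω → ι → ℝ}
    (hc : Continuous c) (hA : Continuous A) :
    Continuous fun q : T × (ι → ℝ) => wVal b (c q.1) (A q.1) q.2 :=
  Continuous.log (continuous_finsetSum _ fun ω _ => continuous_const.mul
    (Real.continuous_exp.comp (((continuous_apply ω).comp (hc.comp continuous_fst)).add
      (continuous_finsetSum _ fun i _ => ((continuous_apply i).comp ((continuous_apply ω).comp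
        (hA.comp continuous_fst))).mul ((continuous_apply i).comp continuous_snd)))))
    fun q => (sum_pos' hb _).ne'

lemma linGrowth_wVal (A : Ω → ι → ℝ) (c : Ω → ℝ) : LinGrowth (wVal b c A) :=
  ⟨Continuous.log (continuous_finsetSum _ fun ω _ => continuous_const.mul
      (Real.continuous_exp.comp (continuous_const.add (continuous_finsetSum _ fun i _ =>
        continuous_const.mul (continuous_apply i))))) fun y => (sum_pos' hb _).ne',
    |Real.log (∑ ω, b ω)| + ∑ ω, |c ω|, ∑ ω, ∑ i, |A ω i|,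
    add_nonneg (abs_nonneg _) (sum_nonneg fun _ _ => abs_nonneg _),
    sum_nonneg fun _ _ => sum_nonneg fun _ _ => abs_nonneg _, abs_wVal_le hb A c⟩

lemma abs_wAvg_le (A : Ω → ι → ℝ) (c : Ω → ℝ) (f : Ω → ℝ) (y : ι → ℝ) :
    |wAvg b c A f y| ≤ ∑ ω, |f ω| := by
  rw [wAvg, abs_div, abs_of_pos (sum_pos' hb _), div_le_iff₀ (sum_pos' hb _), mul_sum]
  refine (abs_sum_le_sum_abs _ _).trans (sum_le_sum fun ω _ => ?_)
  rw [abs_mul, abs_of_pos (mul_pos (hb ω) (Real.exp_pos _)), mul_comm]
  exact mul_le_mul_of_nonneg_right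
    (single_le_sum (f := fun ω => |f ω|) (fun _ _ => abs_nonneg _) (mem_univ ω))
    (mul_pos (hb ω) (Real.exp_pos _)).le

lemma continuous_wAvg {T : Type} [TopologicalSpace T] {c : T → Ω → ℝ} {A : T → Ω → ι → ℝ}
    {f : T → Ω → ℝ} (hc : Continuous c) (hA : Continuous A) (hf : Continuous f) :
    Continuous fun q : T × (ι → ℝ) => wAvg b (c q.1) (A q.1) (f q.1) q.2 := by
  have hw : ∀ ω, Continuous fun q : T × (ι → ℝ) =>
      b ω * Real.exp (c q.1 ω + ∑ i, A q.1 ω i * q.2 i) := fun ω =>
    continuous_const.mul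
      (Real.continuous_exp.comp (((continuous_apply ω).comp (hc.comp continuous_fst)).add
        (continuous_finsetSum _ fun i _ => ((continuous_apply i).comp ((continuous_apply ω).comp
          (hA.comp continuous_fst))).mul ((continuous_apply i).comp continuous_snd))))
  exact (continuous_finsetSum _ fun ω _ => (hw ω).mul
    ((continuous_apply ω).comp (hf.comp continuous_fst))).div
    (continuous_finsetSum _ fun ω _ => hw ω) fun q => (sum_pos' hb _).ne'

lemma tame_wAvg (A : Ω → ι → ℝ) (c : Ω → ℝ) (f : Ω → ℝ) : Tame (wAvg b c A f) :=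
  tame_of_bounded
    ((continuous_finsetSum _ fun ω _ => (continuous_const.mul
      (Real.continuous_exp.comp (continuous_const.add (continuous_finsetSum _ fun i _ =>
        continuous_const.mul (continuous_apply i))))).mul continuous_const).div
      (continuous_finsetSum _ fun ω _ => continuous_const.mul
        (Real.continuous_exp.comp (continuous_const.add (continuous_finsetSum _ fun i _ =>
          continuous_const.mul (continuous_apply i))))) fun y => (sum_pos' hb _).ne')
    (abs_wAvg_le hb A c f)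

lemma wAvg_mono (A : Ω → ι → ℝ) {f g : Ω → ℝ} (h : ∀ ω, f ω ≤ g ω) (y : ι → ℝ) :
    wAvg b c A f y ≤ wAvg b c A g y :=
  div_le_div_of_nonneg_right (sum_le_sum fun ω _ =>
    mul_le_mul_of_nonneg_left (h ω) (mul_pos (hb ω) (Real.exp_pos _)).le) (sum_pos' hb _).le

lemma wAvg_const (A : Ω → ι → ℝ) (r : ℝ) (y : ι → ℝ) : wAvg b c A (fun _ => r) y = r := by
  rw [wAvg, ← sum_mul, mul_div_cancel_left₀ r (sum_pos' hb _).ne']

lemma wAvg_sq_le (A : Ω → ι → ℝ) (f : Ω → ℝ) (y : ι → ℝ) :
    wAvg b c A f y ^ 2 ≤ wAvg b c A (fun ω => f ω ^ 2) y := by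
  set e := wAvg b c A f y with he
  have h := wAvg_mono (c := c) hb A (f := fun ω => 2 * e * f ω - e ^ 2) (g := fun ω => f ω ^ 2)
    (fun ω => by nlinarith [sq_nonneg (f ω - e)]) y
  refine le_trans (le_of_eq ?_) h
  have hZ := (sum_pos' (h := fun ω => c ω + ∑ i, A ω i * y i) hb).ne'
  rw [wAvg] at he
  simp only [wAvg, mul_sub, sum_sub_distrib, mul_left_comm _ (2 * e), ← mul_sum, ← sum_mul,
    sub_div, mul_div_assoc, mul_div_cancel_left₀ _ hZ, ← he]
  ring

section law

variable [MeasurableSpace Ω] [MeasurableSingletonClass Ω]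

lemma wLaw_prob (c : Ω → ℝ) : IsProbabilityMeasure (wLaw b c) := by
  refine ⟨?_⟩
  simp only [wLaw, Measure.coe_finsetSum, Measure.smul_apply, Finset.sum_apply, measure_univ,
    smul_eq_mul, mul_one]
  rw [← ENNReal.ofReal_sum_of_nonneg fun ω _ =>
    div_nonneg (mul_pos (hb ω) (Real.exp_pos _)).le (show 0 ≤ wSum b c from (sum_pos' hb c).le)]
  rw [← sum_div, wSum, div_self (sum_pos' hb c).ne', ENNReal.ofReal_one]

lemma integral_wLaw (c : Ω → ℝ) (f : Ω → ℝ) :
    ∫ ω, f ω ∂wLaw b c = (∑ ω, b ω * Real.exp (c ω) * f ω) / wSum b c := by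
  rw [wLaw, integral_finset_sum_measure fun ω _ =>
    (integrable_dirac (by simp)).smul_measure ENNReal.ofReal_ne_top, sum_div]
  refine sum_congr rfl fun ω _ => ?_
  rw [integral_smul_measure, integral_dirac, ENNReal.toReal_ofReal
    (div_nonneg (mul_pos (hb ω) (Real.exp_pos _)).le (show 0 ≤ wSum b c from (sum_pos' hb c).le)),
    smul_eq_mul]
  ring

omit hb in
lemma ham_linLeaf (A : Ω → ι → ℝ) (ω : Ω) (y : ι → ℝ) :
    (linLeaf A).ham ω y = ∑ i, A ω i * y i := by
  simp [Leaf.ham, Leaf.loc, linLeaf]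

omit hb in
lemma vec_linLeaf (A : Ω → ι → ℝ) (i : ι) (ω : Ω) (y : ι → ℝ) :
    (linLeaf A).vec i ω y = A ω i := by
  simp [Leaf.vec, linLeaf]

lemma logZ_wLaw (A : Ω → ι → ℝ) (c : Ω → ℝ) (y : ι → ℝ) :
    (linLeaf A).logZ (wLaw b c) y + Real.log (wSum b c) = wVal b c A y := by
  have h : ∀ ω, b ω * Real.exp (c ω) * Real.exp (∑ i, A ω i * y i) =
      b ω * Real.exp (c ω + ∑ i, A ω i * y i) := fun ω => by rw [Real.exp_add]; ring
  simp only [Leaf.logZ, integral_wLaw hb, ham_linLeaf, h]
  rw [Real.log_div (sum_pos' hb _).ne' (show wSum b c ≠ 0 from (sum_pos' hb c).ne'), wVal]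
  ring

lemma gibbs_wLaw (A : Ω → ι → ℝ) (c : Ω → ℝ) (f : Ω → (ι → ℝ) → ℝ) (y : ι → ℝ) :
    (linLeaf A).gibbs (wLaw b c) f y = wAvg b c A (fun ω => f ω y) y := by
  have h : ∀ ω (r : ℝ), b ω * Real.exp (c ω) * (Real.exp (∑ i, A ω i * y i) * r) =
      b ω * Real.exp (c ω + ∑ i, A ω i * y i) * r := fun ω r => by rw [Real.exp_add]; ring
  have h' : ∀ ω, b ω * Real.exp (c ω) * Real.exp (∑ i, A ω i * y i) =
      b ω * Real.exp (c ω + ∑ i, A ω i * y i) := fun ω => by rw [Real.exp_add]; ring
  simp only [Leaf.gibbs, integral_wLaw hb, ham_linLeaf, h, h', wAvg]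
  exact div_div_div_cancel_right₀ (sum_pos' hb c).ne' _ _

omit hb in
lemma linLeaf_good {A : Ω → ι → ℝ} {B : ℝ} (h1 : 1 ≤ B) (h : ∀ ω i, |A ω i| ≤ B) :
    (linLeaf A).Good B where
  nonneg := zero_le_one.trans h1
  meas j i := measurable_of_finite _
  bound ω j i := h ω i
  deriv1 j z := hasDerivAt_id z
  deriv2 j z := hasDerivAt_const z 1
  cont2 j := continuous_const
  bound1 j z := by simpa [linLeaf] using h1
  bound2 j z := by simpa [linLeaf] using zero_le_one.trans h1

omit hb in
lemma linLeaf_good' (A : Ω → ι → ℝ) : (linLeaf A).Good (1 + ∑ ω, ∑ i, |A ω i|) :=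
  linLeaf_good (le_add_of_nonneg_right (sum_nonneg fun _ _ => sum_nonneg fun _ _ => abs_nonneg _))
    fun ω i => by
      have h1 := single_le_sum (f := fun i => |A ω i|) (fun _ _ => abs_nonneg _) (mem_univ i)
      have h2 := single_le_sum (f := fun ω => ∑ i, |A ω i|)
        (fun _ _ => sum_nonneg fun _ _ => abs_nonneg _) (mem_univ ω)
      linarith

/-- Adding a constant to the leaf changes no average. -/
lemma avg_logZ {N : Nest ι} (hN : N.Good) (A : Ω → ι → ℝ) (c : Ω → ℝ) {l : ℕ} (hl : l < N.K)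
    (f : (ι → ℝ) → ℝ) :
    N.avg (wVal b c A) l f = N.avg ((linLeaf A).logZ (wLaw b c)) l f := by
  have := wLaw_prob hb c
  have hL := linGrowth_logZ (μ := wLaw b c) (linLeaf_good' A)
  obtain ⟨C, k, hC, hk, h⟩ := hL.2
  funext y
  have e : wVal b c A = fun v => (linLeaf A).logZ (wLaw b c) v + Real.log (wSum b c) :=
    funext fun v => (logZ_wLaw hb A c v).symm
  set r := Real.log (wSum b c)
  have hu : ∀ w, N.u (wVal b c A) (l + 1) w =
      N.u ((linLeaf A).logZ (wLaw b c)) (l + 1) w + r := fun w => by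
    rw [e]
    refine (uUp_add_const hN hL.tame (C := C + k) (fun v => ?_) r (l := l + 1) hl w).1
    refine (h v).trans ?_
    have := l1_nonneg v
    rw [show (∑ i, |v i|) = l1 v from rfl]
    nlinarith
  simp only [avg_eq_stepAvg, stepAvg, tilt, hu, mul_add, Real.exp_add, mul_comm _ (Real.exp (_ * r)),
    mul_assoc, integral_const_mul]
  exact mul_div_mul_left _ _ (Real.exp_ne_zero _)

lemma mean_logZ {N : Nest ι} (hN : N.Good) (A : Ω → ι → ℝ) (c : Ω → ℝ) {l : ℕ} (hl : l ≤ N.K)
    (f : (ι → ℝ) → ℝ) :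
    N.mean (wVal b c A) l f = N.mean ((linLeaf A).logZ (wLaw b c)) l f := by
  induction l generalizing f with
  | zero => rfl
  | succ l ih =>
    simp only [Nest.mean, avg_logZ hb hN A c hl]
    exact ih (Nat.le_of_succ_le hl) _

lemma down_logZ {N : Nest ι} (hN : N.Good) (A : Ω → ι → ℝ) (c : Ω → ℝ) {l : ℕ} (hl : l ≤ N.K)
    (f : (ι → ℝ) → ℝ) :
    N.down (wVal b c A) l f = N.down ((linLeaf A).logZ (wLaw b c)) l f := by
  induction hl using Nat.decreasingInduction with
  | self => simp [down_top le_rfl]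
  | of_succ l hl ih => rw [down_succ hl, down_succ hl, avg_logZ hb hN A c hl, ih]

lemma node_wLaw {N : Nest ι} (hN : N.Good) (A : Ω → ι → ℝ) (c : Ω → ℝ) {l : ℕ} (hl : l ≤ N.K)
    (f : Ω → ℝ) :
    N.node (linLeaf A) (wLaw b c) l (fun ω _ => f ω) =
      N.down (wVal b c A) l (wAvg b c A f) := by
  rw [Nest.node, down_logZ hb hN A c hl]
  congr 1
  exact funext fun y => gibbs_wLaw hb A c _ y

lemma free_eq_root {N : Nest ι} (hN : N.Good) (A : Ω → ι → ℝ) (c : Ω → ℝ) :
    Real.log (wSum b c) + N.free (linLeaf A) (wLaw b c) = N.root (wVal b c A) := by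
  have := wLaw_prob hb c
  rw [show wVal b c A = fun v => (linLeaf A).logZ (wLaw b c) v + Real.log (wSum b c) from
    funext fun v => (logZ_wLaw hb A c v).symm,
    root_add_const hN (linGrowth_logZ (μ := wLaw b c) (linLeaf_good' A)), add_comm]
  rfl

lemma heatTop_wLaw {N : Nest ι} (hN : N.Good) (A : Ω → ι → ℝ) (c : Ω → ℝ) (i : ι) :
    N.heatTop (linLeaf A) (wLaw b c) i =
      N.mean (wVal b c A) N.K (wAvg b c A fun ω => A ω i ^ 2) := by
  have := wLaw_prob hb c
  rw [Nest.heatTop, mean_logZ hb hN A c le_rfl]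
  congr 1
  funext y
  rw [heat_top hN (linLeaf_good' A) i y, gibbs_wLaw hb]
  refine congrArg (fun f => wAvg b c A f y) (funext fun ω => ?_)
  rw [vec_linLeaf]; simp [linLeaf]

lemma grad_wLaw {N : Nest ι} (hN : N.Good) (A : Ω → ι → ℝ) (c : Ω → ℝ) {l : ℕ} (hl : l ≤ N.K)
    (i : ι) :
    N.grad (linLeaf A) (wLaw b c) l i = N.down (wVal b c A) l (wAvg b c A fun ω => A ω i) := by
  rw [Nest.grad, ← node_wLaw hb hN A c hl]
  congr 1
  funext ω y
  exact vec_linLeaf A i ω y

omit hb in
lemma curvLower_linLeaf (A : Ω → ι → ℝ) (S : Finset ι) : (linLeaf A).CurvLower S 0 := by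
  refine ⟨le_rfl, fun ω y v _ => ?_⟩
  simp [linLeaf]

lemma ampTail_bounds {N : Nest ι} (hN : N.Good) (A : Ω → ι → ℝ) (c : Ω → ℝ) {l : ℕ}
    (hl : l ≤ N.K) (i : ι) :
    0 ≤ ampTail N (linLeaf A) (wLaw b c) l i ∧
      ampTail N (linLeaf A) (wLaw b c) l i ≤ N.heatTop (linLeaf A) (wLaw b c) i := by
  have := wLaw_prob hb c
  have hL := linLeaf_good' A
  have hsq : ∀ j, 0 ≤ N.sqGrad (linLeaf A) (wLaw b c) j i := fun j =>
    mean_nonneg j fun v => sq_nonneg _
  have htop : N.sqGrad (linLeaf A) (wLaw b c) N.K i ≤ N.heatTop (linLeaf A) (wLaw b c) i := by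
    rw [heatTop_wLaw hb hN, Nest.sqGrad, ← mean_logZ hb hN A c le_rfl]
    refine mean_mono (linGrowth_wVal hb A c) N.K ((grad_tame hN hL le_rfl i).sq) (tame_wAvg hb A c _)
      fun v => ?_
    rw [grad_wLaw hb hN A c le_rfl, down_top le_rfl]
    exact wAvg_sq_le hb A _ v
  have hw : ∀ j, j ≤ N.K → 0 ≤ N.w j := fun j hj => sub_nonneg.2 (hN.x_mono j hj)
  refine ⟨?_, ?_⟩
  · rw [ampTail, sub_nonneg]
    calc ∑ j ∈ Icc l N.K, N.w j * N.sqGrad (linLeaf A) (wLaw b c) j i
        ≤ ∑ j ∈ Icc l N.K, N.w j * N.heatTop (linLeaf A) (wLaw b c) i :=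
          sum_le_sum fun j hj => mul_le_mul_of_nonneg_left
            ((sqGrad_mono hN hL (mem_Icc.1 hj).2 le_rfl i).trans htop) (hw j (mem_Icc.1 hj).2)
      _ ≤ ∑ j ∈ range (N.K + 1), N.w j * N.heatTop (linLeaf A) (wLaw b c) i :=
          sum_le_sum_of_subset_of_nonneg
            (fun j hj => mem_range.2 (by have := (mem_Icc.1 hj).2; omega))
            fun j hj _ => mul_nonneg (hw j (by have := mem_range.1 hj; omega))
              ((hsq N.K).trans htop)
      _ = N.heatTop (linLeaf A) (wLaw b c) i := by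
          rw [← sum_mul]
          simp only [Nest.w]
          rw [sum_range_sub N.x, hN.x_last, hN.x_zero, sub_zero, one_mul]
  · rw [ampTail, sub_le_self_iff]
    exact sum_nonneg fun j hj => mul_nonneg (hw j (mem_Icc.1 hj).2) (hsq j)

end law

/-! ### Convexity -/

lemma log_sum_convex {f g h : Ω → ℝ} {p q : ℝ} (hp : 0 ≤ p) (hq : 0 ≤ q) (hpq : p + q = 1)
    (hh : ∀ ω, h ω ≤ p * f ω + q * g ω) :
    Real.log (∑ ω, b ω * Real.exp (h ω)) ≤
      p * Real.log (∑ ω, b ω * Real.exp (f ω)) + q * Real.log (∑ ω, b ω * Real.exp (g ω)) := by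
  set F := Real.log (∑ ω, b ω * Real.exp (f ω)) with hF
  set G := Real.log (∑ ω, b ω * Real.exp (g ω)) with hG
  have h1 : ∑ ω, b ω * Real.exp (h ω) ≤ Real.exp (p * F + q * G) := by
    calc ∑ ω, b ω * Real.exp (h ω)
        ≤ ∑ ω, b ω * (Real.exp (p * F + q * G) *
            (p * Real.exp (f ω - F) + q * Real.exp (g ω - G))) := by
          refine sum_le_sum fun ω _ => mul_le_mul_of_nonneg_left ?_ (hb ω).le
          have hc := convexOn_exp.2 (Set.mem_univ (f ω - F)) (Set.mem_univ (g ω - G)) hp hq hpq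
          simp only [smul_eq_mul] at hc
          refine le_trans (le_trans (Real.exp_le_exp.2 (hh ω)) (le_of_eq ?_))
            (mul_le_mul_of_nonneg_left hc (Real.exp_pos _).le)
          rw [← Real.exp_add]; ring_nf
      _ = _ := by
          have e1 : ∑ ω, b ω * Real.exp (f ω - F) = 1 := by
            simp only [Real.exp_sub, mul_div_assoc']
            rw [← sum_div, hF, Real.exp_log (sum_pos' hb f), div_self (sum_pos' hb f).ne']
          have e2 : ∑ ω, b ω * Real.exp (g ω - G) = 1 := by
            simp only [Real.exp_sub, mul_div_assoc']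
            rw [← sum_div, hG, Real.exp_log (sum_pos' hb g), div_self (sum_pos' hb g).ne']
          simp only [mul_add, mul_left_comm (b _), sum_add_distrib, ← mul_sum, e1, e2, mul_one]
          rw [← mul_add, hpq, mul_one]
  exact (Real.log_le_log (sum_pos' hb h) h1).trans_eq (Real.log_exp _)

omit hb in
lemma log_integral_convex {α : Type} [MeasurableSpace α] {P : Measure α} {f g h : α → ℝ} {p q : ℝ}
    (hp : 0 ≤ p) (hq : 0 ≤ q) (hpq : p + q = 1) (hh : ∀ z, h z ≤ p * f z + q * g z)
    (if' : Integrable (fun z => Real.exp (f z)) P) (ig : Integrable (fun z => Real.exp (g z)) P)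
    (ih : Integrable (fun z => Real.exp (h z)) P) [NeZero P] :
    Real.log (∫ z, Real.exp (h z) ∂P) ≤
      p * Real.log (∫ z, Real.exp (f z) ∂P) + q * Real.log (∫ z, Real.exp (g z) ∂P) := by
  set F := Real.log (∫ z, Real.exp (f z) ∂P) with hF
  set G := Real.log (∫ z, Real.exp (g z) ∂P) with hG
  have i1 := (if'.mul_const (Real.exp (-F))).const_mul p
  have i2 := (ig.mul_const (Real.exp (-G))).const_mul q
  have h1 : ∫ z, Real.exp (h z) ∂P ≤ Real.exp (p * F + q * G) := by
    refine (integral_mono ih ((i1.add i2).const_mul (Real.exp (p * F + q * G))) fun z => ?_).trans_eq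
      ?_
    · simp only [Pi.add_apply]
      have hc := convexOn_exp.2 (Set.mem_univ (f z - F)) (Set.mem_univ (g z - G)) hp hq hpq
      simp only [smul_eq_mul, sub_eq_add_neg, Real.exp_add] at hc
      refine le_trans (le_trans (Real.exp_le_exp.2 (hh z)) (le_of_eq ?_))
        (mul_le_mul_of_nonneg_left hc (Real.exp_pos _).le)
      simp only [← Real.exp_add]; ring_nf
    · simp only [Pi.add_apply]
      rw [integral_const_mul, integral_add i1 i2, integral_const_mul, integral_const_mul,
        integral_mul_const, integral_mul_const, Real.exp_neg F, Real.exp_neg G, hF, hG,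
        Real.exp_log (integral_exp_pos if'), Real.exp_log (integral_exp_pos ig),
        mul_inv_cancel₀ (integral_exp_pos if').ne', mul_inv_cancel₀ (integral_exp_pos ig).ne',
        mul_one, mul_one, hpq, mul_one]
  exact (Real.log_le_log (integral_exp_pos ih) h1).trans_eq (Real.log_exp _)

/-- The root is jointly convex in the exponents of the weights and the amplitudes. -/
theorem root_convex {N : Nest ι} (hN : N.Good) (A : Ω → ι → ℝ) :
    ConvexOn ℝ Set.univ fun w : (Ω → ℝ) × (ℕ → ι → ℝ) =>
      (N.setAmp w.2).root (wVal b w.1 A) := by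
  refine ⟨convex_univ, fun v _ w _ p q hp hq hpq => ?_⟩
  simp only [smul_eq_mul]
  set a := (p • v + q • w).2 with ha
  set cc := (p • v + q • w).1 with hcc
  have key : ∀ l, l ≤ N.K → ∀ y₁ y₂, (N.setAmp a).u (wVal b cc A) l
      (fun i => p * y₁ i + q * y₂ i) ≤ p * (N.setAmp v.2).u (wVal b v.1 A) l y₁ +
        q * (N.setAmp w.2).u (wVal b w.1 A) l y₂ := by
    intro l hl
    induction hl using Nat.decreasingInduction with
    | self =>
      intro y₁ y₂
      simp only [fun e => u_top (N := N.setAmp e) (show (N.setAmp e).K ≤ N.K from le_rfl), wVal]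
      refine log_sum_convex hb hp hq hpq fun ω => le_of_eq ?_
      simp only [cc, Prod.fst_add, Prod.smul_fst, Pi.add_apply, Pi.smul_apply, smul_eq_mul, mul_add,
        mul_sum, sum_add_distrib]
      rw [add_add_add_comm]
      simp only [mul_left_comm (A ω _)]
    | of_succ l hl ih =>
      intro y₁ y₂
      have hx := hN.x_pos (l + 1) (by omega) (by omega)
      rw [u_succ (N := N.setAmp a) hl, u_succ (N := N.setAmp v.2) hl,
        u_succ (N := N.setAmp w.2) hl]
      simp only [stepLog, show ∀ e, (N.setAmp e).x = N.x from fun _ => rfl,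
        show ∀ e, (N.setAmp e).amp = e from fun _ => rfl]
      rw [← mul_assoc p, ← mul_assoc q, mul_comm p, mul_comm q, mul_assoc, mul_assoc, ← mul_add]
      refine mul_le_mul_of_nonneg_left (log_integral_convex hp hq hpq (fun z => ?_)
        (integrable_exp_move (linGrowth_u _ (linGrowth_wVal hb A v.1) _) _ _ y₁)
        (integrable_exp_move (linGrowth_u _ (linGrowth_wVal hb A w.1) _) _ _ y₂)
        (integrable_exp_move (linGrowth_u _ (linGrowth_wVal hb A cc) _) _ _ _)) (inv_nonneg.2 hx.le)
      rw [← mul_assoc p, ← mul_assoc q, mul_comm p, mul_comm q, mul_assoc, mul_assoc, ← mul_add]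
      refine mul_le_mul_of_nonneg_left (le_trans (le_of_eq ?_) (ih _ _)) hx.le
      congr 1
      funext i
      simp only [move, a, Prod.snd_add, Prod.smul_snd, Pi.add_apply, Pi.smul_apply, smul_eq_mul]
      ring
  simp only [root_eq]
  have i1 := integrable_scale (linGrowth_u (N.setAmp v.2) (linGrowth_wVal hb A v.1) 0).tame (v.2 0)
  have i2 := integrable_scale (linGrowth_u (N.setAmp w.2) (linGrowth_wVal hb A w.1) 0).tame (w.2 0)
  rw [← integral_const_mul, ← integral_const_mul]
  refine (integral_mono (integrable_scale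
    (linGrowth_u (N.setAmp a) (linGrowth_wVal hb A cc) 0).tame (a 0))
    ((i1.const_mul p).add (i2.const_mul q)) fun z => ?_).trans_eq
    (integral_add (i1.const_mul p) (i2.const_mul q))
  refine le_trans (le_of_eq ?_) (key 0 (Nat.zero_le _) _ _)
  congr 1
  funext i
  simp only [a, Prod.snd_add, Prod.smul_snd, Pi.add_apply, Pi.smul_apply, smul_eq_mul]
  ring

/-! ### Derivatives -/

omit hb in
/-- A convex function of two variables with derivatives on both axes has one on the diagonal. -/
lemma hasDerivAt_diag {F : ℝ → ℝ → ℝ} (hF : ConvexOn ℝ Set.univ fun w : ℝ × ℝ => F w.1 w.2)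
    {a a' : ℝ} (h1 : HasDerivAt (fun t => F t 0) a 0) (h2 : HasDerivAt (fun t => F 0 t) a' 0) :
    HasDerivAt (fun t => F t t) (a + a') 0 := by
  have k1 : HasDerivAt (fun t => F (2 * t) 0) (a * 2) 0 := by
    have h1' : HasDerivAt (fun t => F t 0) a (2 * 0) := by simpa using h1
    exact h1'.comp (0:ℝ) (by simpa using (hasDerivAt_id (0:ℝ)).const_mul 2)
  have k2 : HasDerivAt (fun t => F 0 (2 * t)) (a' * 2) 0 := by
    have h2' : HasDerivAt (fun t => F 0 t) a' (2 * 0) := by simpa using h2
    exact h2'.comp (0:ℝ) (by simpa using (hasDerivAt_id (0:ℝ)).const_mul 2)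
  set u : ℝ → ℝ := fun t =>
    1 / 2 * (F (2 * t) 0 - F 0 0 - t * (a * 2)) + 1 / 2 * (F 0 (2 * t) - F 0 0 - t * (a' * 2))
  have hu : u =o[𝓝 0] fun t : ℝ => t := by
    have e1 := hasDerivAt_iff_isLittleO_nhds_zero.1 k1
    have e2 := hasDerivAt_iff_isLittleO_nhds_zero.1 k2
    simp only [zero_add, mul_zero, smul_eq_mul] at e1 e2
    exact (e1.const_mul_left _).add (e2.const_mul_left _)
  have hu' : (fun t => u (-t)) =o[𝓝 0] fun t : ℝ => t := by
    have hc : Tendsto (fun t : ℝ => -t) (𝓝 0) (𝓝 0) := by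
      simpa using (continuous_neg.tendsto (0:ℝ))
    exact Asymptotics.isLittleO_neg_right.1 (hu.comp_tendsto hc)
  have hmid : ∀ x y : ℝ × ℝ, F ((x.1 + y.1) / 2) ((x.2 + y.2) / 2) ≤
      1 / 2 * F x.1 x.2 + 1 / 2 * F y.1 y.2 := fun x y => by
    have := hF.2 (Set.mem_univ x) (Set.mem_univ y) (by norm_num : (0:ℝ) ≤ 1 / 2)
      (by norm_num : (0:ℝ) ≤ 1 / 2) (by norm_num)
    simp only [Prod.fst_add, Prod.snd_add, Prod.smul_fst, Prod.smul_snd, smul_eq_mul] at this
    refine le_trans (le_of_eq ?_) this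
    congr 1 <;> ring
  have hup : ∀ t, F t t - F 0 0 - t * (a + a') ≤ u t := fun t => by
    have h := hmid (2 * t, 0) (0, 2 * t)
    simp only [zero_add, add_zero] at h
    rw [show 2 * t / 2 = t by ring] at h
    simp only [u]
    linarith
  have hlow : ∀ t, -u (-t) ≤ F t t - F 0 0 - t * (a + a') := fun t => by
    have h := hmid (t, t) (-t, -t)
    simp only [add_neg_cancel, zero_div] at h
    have := hup (-t)
    linarith
  rw [hasDerivAt_iff_isLittleO_nhds_zero]
  simp only [zero_add, smul_eq_mul]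
  refine Asymptotics.IsBigO.trans_isLittleO ?_ (hu.norm_left.add hu'.norm_left)
  refine Asymptotics.IsBigO.of_bound 1 (Eventually.of_forall fun t => ?_)
  rw [one_mul, Real.norm_eq_abs, Real.norm_eq_abs, Real.norm_eq_abs, Real.norm_eq_abs,
    abs_of_nonneg (add_nonneg (abs_nonneg (u t)) (abs_nonneg _)), abs_le]
  constructor
  · linarith [hlow t, le_abs_self (u (-t)), abs_nonneg (u t)]
  · linarith [hup t, le_abs_self (u t), abs_nonneg (u (-t))]

lemma hasDerivAt_wVal (A : Ω → ι → ℝ) (c dc : Ω → ℝ) (y : ι → ℝ) (t : ℝ) :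
    HasDerivAt (fun t => wVal b (fun ω => c ω + t * dc ω) A y)
      (wAvg b (fun ω => c ω + t * dc ω) A dc y) t := by
  have h1 : ∀ ω, HasDerivAt (fun t => b ω * Real.exp (c ω + t * dc ω + ∑ i, A ω i * y i))
      (b ω * Real.exp (c ω + t * dc ω + ∑ i, A ω i * y i) * dc ω) t := fun ω => by
    refine (((((hasDerivAt_id t).mul_const (dc ω)).const_add (c ω)).add_const _).exp.const_mul
      (b ω)).congr_deriv ?_
    simp [mul_assoc]
  exact (HasDerivAt.fun_sum fun ω _ => h1 ω).log (sum_pos' hb _).ne'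

lemma lfam_wVal (A : Ω → ι → ℝ) (c dc : Ω → ℝ) :
    Param.LFam (fun t => wVal b (fun ω => c ω + t * dc ω) A)
      (fun t => wAvg b (fun ω => c ω + t * dc ω) A dc) 0 1 := by
  set C := |Real.log (∑ ω, b ω)| + (∑ ω, (|c ω| + |dc ω|)) with hC
  set k := ∑ ω, ∑ i, |A ω i| with hk
  have hC0 : 0 ≤ C := by positivity
  have hk0 : 0 ≤ k := by positivity
  have hlin : ∀ t, |t - 0| < 1 → ∀ y, |wVal b (fun ω => c ω + t * dc ω) A y| ≤ C + k * l1 y := by
    intro t ht y
    rw [sub_zero] at ht
    refine (abs_wVal_le hb A _ y).trans (add_le_add (add_le_add le_rfl ?_) le_rfl)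
    refine sum_le_sum fun ω _ => (abs_add_le _ _).trans (add_le_add le_rfl ?_)
    rw [abs_mul]
    exact mul_le_of_le_one_left (abs_nonneg _) ht.le
  refine ⟨⟨C + k + ∑ ω, |dc ω|, 1, by positivity, zero_le_one, fun t ht =>
    ⟨(linGrowth_wVal hb A _).1, (tame_wAvg hb A _ dc).1, fun y =>
      ⟨hasDerivAt_wVal hb A c dc y t, ?_, ?_⟩⟩⟩, C, k, hC0, hk0, hlin⟩
  · refine (hlin t ht y).trans ((add_mul_le_exp hC0 hk0 (l1_nonneg y)).trans ?_)
    exact mul_le_mul_of_nonneg_right (le_add_of_nonneg_right (by positivity)) (Real.exp_pos _).le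
  · refine (abs_wAvg_le hb A _ dc y).trans (le_trans ?_ (le_mul_of_one_le_right (by positivity)
      (Real.one_le_exp (by have := l1_nonneg y; linarith))))
    linarith

/-- The derivative in the exponents of the weights. -/
lemma hasDerivAt_root_c {N : Nest ι} (hN : N.Good) (A : Ω → ι → ℝ) (c dc : Ω → ℝ) :
    HasDerivAt (fun t => N.root (wVal b (fun ω => c ω + t * dc ω) A))
      (N.mean (wVal b c A) N.K (wAvg b c A dc)) 0 := by
  have hU := lfam_wVal hb A c dc
  have h := Param.hasDerivAt_mean hN one_pos hU (Nat.zero_le _)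
    (Param.lfam_u hN hU (Nat.zero_le N.K)).1
  simp only [hN.x_zero, zero_mul, add_zero, range_zero, sum_empty, sub_zero] at h
  refine h.congr_deriv ?_
  exact mean_down (Nat.zero_le _) _

/-- The derivative of the root along a line of exponents and amplitudes. -/
theorem hasDerivAt_root [MeasurableSpace Ω] [MeasurableSingletonClass Ω] {N : Nest ι} (hN : N.Good)
    (A : Ω → ι → ℝ) (c dc : Ω → ℝ) (da : ℕ → ι → ℝ) :
    HasDerivAt (fun t => (N.setAmp fun l i => N.amp l i + t * da l i).root
        (wVal b (fun ω => c ω + t * dc ω) A))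
      (N.mean (wVal b c A) N.K (wAvg b c A dc) +
        ∑ l ∈ range (N.K + 1), ∑ i, da l i * N.amp l i * ampTail N (linLeaf A) (wLaw b c) l i) 0 := by
  refine hasDerivAt_diag
    (F := fun s t => (N.setAmp fun l i => N.amp l i + t * da l i).root
      (wVal b (fun ω => c ω + s * dc ω) A)) ?_ ?_ ?_
  · let Ψ : (ℝ × ℝ) →ₗ[ℝ] (Ω → ℝ) × (ℕ → ι → ℝ) :=
      { toFun := fun w => (fun ω => w.1 * dc ω, fun l i => w.2 * da l i)
        map_add' := fun v w => by ext <;> simp [add_mul]
        map_smul' := fun r w => by ext <;> simp [mul_assoc] }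
    have h := ((root_convex hb hN A).translate_right (c, N.amp)).comp_linearMap Ψ
    simp only [Set.preimage_univ] at h
    exact h
  · have := hasDerivAt_root_c hb hN A c dc
    simpa [show N.setAmp (fun l i => N.amp l i) = N from rfl] using this
  · have := wLaw_prob hb c
    have hL := linLeaf_good' A
    have h := free_deriv (μ := wLaw b c) hN hL (A := fun t l i => N.amp l i + t * da l i)
      (A' := fun _ l i => da l i) (t₀ := 0) one_pos
      (fun l _ i t _ => by
        simpa using ((hasDerivAt_id t).mul_const (da l i)).const_add (N.amp l i))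
      (fun l _ i => continuousAt_const)
    simp only [zero_mul, add_zero, show N.setAmp (fun l i => N.amp l i) = N from rfl] at h
    refine ((h.const_add (Real.log (wSum b c))).congr_deriv ?_).congr_of_eventuallyEq
      (.of_forall fun t => ?_)
    · rfl
    · simp only [zero_mul, add_zero]
      exact (free_eq_root hb (good_setAmp hN _) A c).symm

/-! ### Continuity -/

section continuity

variable {T : Type} [TopologicalSpace T] [FirstCountableTopology T] {N : Nest ι}
  {amp : T → ℕ → ι → ℝ} {c : T → Ω → ℝ} {A : T → Ω → ι → ℝ}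
  (hamp : Continuous amp) (hc : Continuous c) (hA : Continuous A)

include hamp hc hA

omit [FirstCountableTopology T] hamp in
lemma plin_wVal : PLin fun t => wVal b (c t) (A t) := by
  refine ⟨continuous_wVal hb hc hA, fun t₀ => ?_⟩
  set f1 := fun t => |Real.log (∑ ω, b ω)| + ∑ ω, |c t ω|
  set f2 := fun t => ∑ ω, ∑ i, |A t ω i|
  have c1 : Continuous f1 := continuous_const.add
    (continuous_finsetSum _ fun ω _ => ((continuous_apply ω).comp hc).abs)
  have c2 : Continuous f2 := continuous_finsetSum _ fun ω _ => continuous_finsetSum _ fun i _ =>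
    ((continuous_apply i).comp ((continuous_apply ω).comp hA)).abs
  refine ⟨f1 t₀ + 1, f2 t₀ + 1, by positivity, by positivity, ?_⟩
  filter_upwards [c1.continuousAt.eventually_lt_const (lt_add_one (f1 t₀)),
    c2.continuousAt.eventually_lt_const (lt_add_one (f2 t₀))] with t h1 h2 y
  exact (abs_wVal_le hb (A t) (c t) y).trans
    (add_le_add h1.le (mul_le_mul_of_nonneg_right h2.le (l1_nonneg y)))

lemma continuous_amp_apply (l : ℕ) (i : ι) : Continuous fun t => amp t l i :=
  (continuous_apply i).comp ((continuous_apply l).comp hamp)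

lemma plin_u {l : ℕ} (hl : l ≤ N.K) :
    PLin fun t => (N.setAmp (amp t)).u (wVal b (c t) (A t)) l := by
  induction hl using Nat.decreasingInduction with
  | self =>
    simp only [fun e => u_top (N := N.setAmp e) (show (N.setAmp e).K ≤ N.K from le_rfl)]
    exact plin_wVal hb hc hA
  | of_succ l hl ih =>
    simp only [fun e => u_succ (N := N.setAmp e) hl]
    exact plin_stepLog ih (continuous_amp_apply hb hamp hc hA (l + 1)) _

lemma continuous_mean {l : ℕ} (hl : l ≤ N.K) {f : T → (ι → ℝ) → ℝ} (hf : PTame f) :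
    Continuous fun t => (N.setAmp (amp t)).mean (wVal b (c t) (A t)) l (f t) := by
  induction l generalizing f with
  | zero => exact hf.continuous_integral (continuous_amp_apply hb hamp hc hA 0)
  | succ l ih =>
    exact ih (Nat.le_of_succ_le hl)
      (ptame_tilt (plin_u hb hamp hc hA hl) (continuous_amp_apply hb hamp hc hA (l + 1)) _ hf)

lemma continuous_root : Continuous fun t => (N.setAmp (amp t)).root (wVal b (c t) (A t)) :=
  continuous_mean hb hamp hc hA (Nat.zero_le _) (plin_u hb hamp hc hA (Nat.zero_le _)).ptame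

lemma ptame_down {l : ℕ} (hl : l ≤ N.K) {f : T → Ω → ℝ} (hf : Continuous f) :
    PTame fun t => (N.setAmp (amp t)).down (wVal b (c t) (A t)) l (wAvg b (c t) (A t) (f t)) := by
  induction hl using Nat.decreasingInduction with
  | self =>
    simp only [fun e => down_top (N := N.setAmp e) (show (N.setAmp e).K ≤ N.K from le_rfl)]
    refine ⟨continuous_wAvg hb hc hA hf, fun t₀ => ?_⟩
    have c1 : Continuous fun t => ∑ ω, |f t ω| :=
      continuous_finsetSum _ fun ω _ => ((continuous_apply ω).comp hf).abs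
    refine ⟨(∑ ω, |f t₀ ω|) + 1, 0, by positivity, le_rfl, ?_⟩
    filter_upwards [c1.continuousAt.eventually_lt_const (lt_add_one (∑ ω, |f t₀ ω|))] with t h y
    simpa using (abs_wAvg_le hb (A t) (c t) (f t) y).trans h.le
  | of_succ l hl ih =>
    simp only [fun e => down_succ (N := N.setAmp e) hl]
    exact ptame_tilt (plin_u hb hamp hc hA hl) (continuous_amp_apply hb hamp hc hA (l + 1)) _ ih

lemma continuous_heatTop [MeasurableSpace Ω] [MeasurableSingletonClass Ω] (hN : N.Good) (i : ι) :
    Continuous fun t => (N.setAmp (amp t)).heatTop (linLeaf (A t)) (wLaw b (c t)) i := by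
  have h := ptame_down hb hamp hc hA (N := N) le_rfl (f := fun t ω => A t ω i ^ 2)
    (continuous_pi fun ω => ((continuous_apply i).comp ((continuous_apply ω).comp hA)).pow 2)
  simp only [fun e => down_top (N := N.setAmp e) (show (N.setAmp e).K ≤ N.K from le_rfl)] at h
  exact (continuous_mean hb hamp hc hA le_rfl h).congr fun t =>
    (heatTop_wLaw hb (good_setAmp hN _) _ _ i).symm

lemma continuous_sqGrad [MeasurableSpace Ω] [MeasurableSingletonClass Ω] (hN : N.Good) {l : ℕ}
    (hl : l ≤ N.K) (i : ι) :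
    Continuous fun t => (N.setAmp (amp t)).sqGrad (linLeaf (A t)) (wLaw b (c t)) l i := by
  have h := ptame_down hb hamp hc hA (N := N) hl (f := fun t ω => A t ω i)
    (continuous_pi fun ω => (continuous_apply i).comp ((continuous_apply ω).comp hA))
  refine (continuous_mean hb hamp hc hA hl (h.mul h)).congr fun t => ?_
  rw [Nest.sqGrad, ← mean_logZ hb (good_setAmp hN (amp t)) (A t) (c t) hl,
    grad_wLaw hb (good_setAmp hN (amp t)) (A t) (c t) hl]
  simp only [← sq]

end continuity

/-! ### Signs of the amplitudes -/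

omit hb in
lemma integral_signs {F : (ι → ℝ) → ℝ} {ε : ι → ℝ} (hε : ∀ i, ε i = 1 ∨ ε i = -1) :
    ∫ z, F (fun i => ε i * z i) ∂gauss ι = ∫ z, F z ∂gauss ι := by
  let e : (ι → ℝ) ≃ᵐ (ι → ℝ) :=
    { toFun := fun z i => ε i * z i
      invFun := fun z i => ε i * z i
      left_inv := fun z => funext fun i => by rcases hε i with h | h <;> simp [h]
      right_inv := fun z => funext fun i => by rcases hε i with h | h <;> simp [h]
      measurable_toFun := by simp only [Equiv.coe_fn_mk]; fun_prop
      measurable_invFun := by simp only [Equiv.coe_fn_symm_mk]; fun_prop }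
  have mp : MeasurePreserving e (gauss ι) (gauss ι) :=
    measurePreserving_pi (f := fun i x => ε i * x) (fun _ => gaussianReal 0 1)
      (fun _ => gaussianReal 0 1) fun i => ⟨by fun_prop, by
        rcases hε i with h | h
        · simp only [h, one_mul, Measure.map_id']
        · simp only [h, neg_one_mul]
          rw [gaussianReal_map_neg, neg_zero]⟩
  exact mp.integral_comp' F

omit hb in
/-- The root only depends on the absolute values of the amplitudes. -/
lemma root_signs {N : Nest ι} {U : (ι → ℝ) → ℝ} {a a' : ℕ → ι → ℝ}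
    (h : ∀ l, l ≤ N.K → ∀ i, |a l i| = |a' l i|) : (N.setAmp a).root U = (N.setAmp a').root U := by
  have hsign : ∀ l, l ≤ N.K → ∃ ε : ι → ℝ, (∀ i, ε i = 1 ∨ ε i = -1) ∧
      ∀ i, a l i = a' l i * ε i := fun l hl => by
    refine ⟨fun i => if a l i = a' l i then 1 else -1, fun i => by
      by_cases e : a l i = a' l i <;> simp [e], fun i => ?_⟩
    rcases abs_eq_abs.1 (h l hl i) with e | e
    · simp [e]
    · by_cases e' : a l i = a' l i <;> simp [e', e]
  have key : ∀ l, l ≤ N.K → (N.setAmp a).u U l = (N.setAmp a').u U l := by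
    intro l hl
    induction hl using Nat.decreasingInduction with
    | self => simp [fun e => u_top (N := N.setAmp e) (show (N.setAmp e).K ≤ N.K from le_rfl)]
    | of_succ l hl ih =>
      obtain ⟨ε, hε, he⟩ := hsign (l + 1) hl
      rw [u_succ (N := N.setAmp a) hl, u_succ (N := N.setAmp a') hl, ih]
      funext y
      have e : ∀ z, move ((N.setAmp a).amp (l + 1)) y z =
          move ((N.setAmp a').amp (l + 1)) y fun i => ε i * z i := fun z => by
        funext i; simp [move, Nest.setAmp, he i, mul_assoc]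
      simp only [stepLog, e, show (N.setAmp a).x = (N.setAmp a').x from rfl]
      rw [integral_signs (F := fun z => Real.exp ((N.setAmp a').x (l + 1) *
        (N.setAmp a').u U (l + 1) (move ((N.setAmp a').amp (l + 1)) y z))) hε]
  obtain ⟨ε, hε, he⟩ := hsign 0 (Nat.zero_le _)
  rw [root_eq, root_eq, key 0 (Nat.zero_le _),
    ← integral_signs (F := fun z => (N.setAmp a').u U 0 fun i => (N.setAmp a').amp 0 i * z i) hε]
  simp [Nest.setAmp, he, mul_assoc]

/-- The root increases with the absolute values of the amplitudes. -/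
theorem root_amp_mono [MeasurableSpace Ω] [MeasurableSingletonClass Ω] {N : Nest ι} (hN : N.Good)
    (A : Ω → ι → ℝ) (c : Ω → ℝ) {a a' : ℕ → ι → ℝ}
    (h : ∀ l, l ≤ N.K → ∀ i, |a l i| ≤ |a' l i|) :
    (N.setAmp a).root (wVal b c A) ≤ (N.setAmp a').root (wVal b c A) := by
  rw [root_signs (a' := fun l i => |a l i|) (fun l _ i => (abs_abs _).symm),
    root_signs (a := a') (a' := fun l i => |a' l i|) (fun l _ i => (abs_abs _).symm)]
  set M : ℝ → Nest ι := fun t => N.setAmp fun l i => |a l i| + t * (|a' l i| - |a l i|)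
  set f := fun t => (M t).root (wVal b c A)
  have hd : ∀ t, HasDerivAt f (∑ l ∈ range (N.K + 1), ∑ i, (|a' l i| - |a l i|) *
      (|a l i| + t * (|a' l i| - |a l i|)) * ampTail (M t) (linLeaf A) (wLaw b c) l i) t := fun t => by
    have h0 := hasDerivAt_root hb (good_setAmp hN (M t).amp) A c (fun _ => 0)
      (fun l i => |a' l i| - |a l i|)
    have hzero : wAvg b c A (fun _ => (0:ℝ)) = fun _ => 0 := funext fun y => by simp [wAvg]
    simp only [mul_zero, add_zero, hzero, mean_const (linGrowth_wVal hb A c), zero_add] at h0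
    rw [← sub_self t] at h0
    refine ((h0.comp_sub_const t t).congr_of_eventuallyEq (.of_forall fun s => ?_))
    simp only [f, M, Nest.setAmp]
    congr 2
    funext l i
    ring
  have hmono : MonotoneOn f (Set.Icc 0 1) := by
    refine monotoneOn_of_hasDerivWithinAt_nonneg (convex_Icc _ _)
      (fun t _ => (hd t).continuousAt.continuousWithinAt) (fun t _ => (hd t).hasDerivWithinAt)
      fun t ht => sum_nonneg fun l hl => sum_nonneg fun i _ => ?_
    rw [interior_Icc] at ht
    have hl' : l ≤ N.K := Nat.lt_succ_iff.1 (mem_range.1 hl)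
    have := h l hl' i
    refine mul_nonneg (mul_nonneg (by linarith) ?_)
      (ampTail_bounds hb (good_setAmp hN _) A c (show l ≤ (M t).K from hl') i).1
    have := mul_nonneg ht.1.le (sub_nonneg.2 this)
    have := abs_nonneg (a l i)
    linarith
  simpa [f, M] using hmono (Set.left_mem_Icc.2 zero_le_one) (Set.right_mem_Icc.2 zero_le_one)
    zero_le_one

end Vale.Agent.P166.Parisi.Lin
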