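import Vale.Agent.P166.Parisi.Basics.Lin

/-!
Independent spins in hierarchical fields.
-/

set_option linter.unusedSectionVars false

namespace Vale.Agent.P166.Parisi.Lin

open MeasureTheory ProbabilityTheory Finset
open Vale.Agent.P157 Vale.Agent.P157.Parisi

lemma spinLaw_prob : IsProbabilityMeasure spinLaw := by
  refine ⟨?_⟩
  simp [spinLaw, ENNReal.inv_two_add_inv_two]

lemma spinLeaf_good : spinLeaf.Good 1 :=
  linLeaf_good (A := fun (b : Bool) (_ : Unit) => if b then (1:ℝ) else -1) le_rfl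
    fun b _ => by cases b <;> simp

lemma logZ_spin (y : Unit → ℝ) : spinLeaf.logZ spinLaw y = Real.log (Real.cosh (y ())) := by
  have h : ∫ b, Real.exp (spinLeaf.ham b y) ∂spinLaw = Real.cosh (y ()) := by
    rw [spinLaw, integral_finset_sum_measure fun b _ =>
      (integrable_dirac (by simp)).smul_measure ENNReal.ofReal_ne_top]
    simp only [integral_smul_measure, integral_dirac, smul_eq_mul,
      ENNReal.toReal_ofReal (by norm_num : (0:ℝ) ≤ 1 / 2), Fintype.sum_bool]
    simp [Leaf.ham, Leaf.loc, spinLeaf, Real.cosh_eq]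
    ring
  rw [Leaf.logZ, h]

/-- The sum over all configurations of independent spins. -/
lemma sum_spins (m : ℕ) (y : Fin m → ℝ) :
    ∑ σ : Fin m → Bool, 1 / (2 : ℝ) ^ m * Real.exp (∑ i, spin σ i * y i) =
      ∏ i, Real.cosh (y i) := by
  have h : ∀ σ : Fin m → Bool, 1 / (2 : ℝ) ^ m * Real.exp (∑ i, spin σ i * y i) =
      ∏ i, 1 / 2 * Real.exp ((if σ i then 1 else -1) * y i) := fun σ => by
    rw [prod_mul_distrib, prod_const, card_univ, Fintype.card_fin, Real.exp_sum, div_pow, one_pow]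
    simp [spin]
  simp only [h]
  rw [← Fintype.prod_sum fun i (b : Bool) => 1 / 2 * Real.exp ((if b then 1 else -1) * y i)]
  refine prod_congr rfl fun i _ => ?_
  simp [Real.cosh_eq]
  ring

lemma logZ_tau (m : ℕ) (y : Fin m → ℝ) :
    (linLeaf fun σ : Fin m → Bool => spin σ).logZ
        (wLaw (fun _ => 1 / (2 : ℝ) ^ m) fun _ => 0) y =
      ∑ i, Real.log (Real.cosh (y i)) := by
  have hb : ∀ _σ : Fin m → Bool, 0 < 1 / (2 : ℝ) ^ m := fun _ => by positivity
  have h1 : wSum (fun _ : Fin m → Bool => 1 / (2 : ℝ) ^ m) (fun _ => 0) = 1 := by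
    simp [wSum, Fintype.card_pi]
  have h := logZ_wLaw hb (fun σ => spin σ) (fun _ => 0) y
  rw [h1, Real.log_one, add_zero] at h
  rw [h, wVal]
  simp only [zero_add]
  rw [sum_spins, Real.log_prod fun i _ => (Real.cosh_pos _).ne']

/-- Independent spins: the free energy is the sum over the spins. -/
theorem free_spins : ∀ (m : ℕ) {ι Ω κ : Type} [Fintype ι] [Fintype κ] [MeasurableSpace Ω]
    (N : Nest ι) (L : Leaf Ω κ ι) (μ : Measure Ω) [IsProbabilityMeasure μ] {B : ℝ}, N.Good →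
    L.Good B → ∀ e : Fin m ↪ ι,
    (∀ y : ι → ℝ, (∀ i, (∀ l ≤ N.K, N.amp l i = 0) → y i = 0) →
      L.logZ μ y = ∑ i, Real.log (Real.cosh (y (e i)))) →
    N.free L μ =
      ∑ i, (⟨N.K, N.x, fun l _ => N.amp l (e i)⟩ : Nest Unit).free spinLeaf spinLaw := by
  intro m
  induction m with
  | zero =>
    intro ι Ω κ _ _ _ N L μ _ B hN hL e hU
    have key : ∀ l, l ≤ N.K → ∀ y : ι → ℝ, (∀ i, (∀ j ≤ N.K, N.amp j i = 0) → y i = 0) →
        N.u (L.logZ μ) l y = 0 := by
      intro l hl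
      induction hl using Nat.decreasingInduction with
      | self => intro y hy; rw [u_top le_rfl, hU y hy]; simp
      | of_succ l hl ih =>
        intro y hy
        rw [u_succ hl]
        have : ∀ z, N.u (L.logZ μ) (l + 1) (move (N.amp (l + 1)) y z) = 0 := fun z =>
          ih _ fun i hi => by simp [move, hy i hi, hi (l + 1) hl]
        simp [stepLog, this]
    show ∫ z, N.u (L.logZ μ) 0 (fun i => N.amp 0 i * z i) ∂gauss ι = _
    have : ∀ z : ι → ℝ, N.u (L.logZ μ) 0 (fun i => N.amp 0 i * z i) = 0 := fun z =>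
      key 0 (Nat.zero_le _) _ fun i hi => by simp [hi 0 (Nat.zero_le _)]
    simp [this]
  | succ m ih =>
    intro ι Ω κ _ _ _ N L μ _ B hN hL e hU
    let e₁ : Fin m ↪ ι := Fin.castSuccEmb.trans e
    let e₂ : Unit ↪ ι := ⟨fun _ => e (Fin.last m), fun _ _ _ => rfl⟩
    let N₁ : Nest (Fin m) := ⟨N.K, N.x, fun l i => N.amp l (e₁ i)⟩
    let N₂ : Nest Unit := ⟨N.K, N.x, fun l _ => N.amp l (e₂ ())⟩
    have hb : ∀ _σ : Fin m → Bool, 0 < 1 / (2 : ℝ) ^ m := fun _ => by positivity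
    have := wLaw_prob hb fun _ => 0
    have := spinLaw_prob
    have hN₁ : N₁.Good := ⟨hN.x_zero, hN.x_last, hN.x_pos, hN.x_mono⟩
    have hL₁ := linLeaf_good' (fun σ : Fin m → Bool => spin σ)
    rw [free_add hN hL (N₁ := N₁) (N₂ := N₂) (μ₁ := wLaw (fun _ => 1 / (2 : ℝ) ^ m) fun _ => 0)
        (μ₂ := spinLaw) hL₁ spinLeaf_good e₁ e₂ (fun i _ h => Fin.castSucc_ne_last i (e.injective h))
        rfl rfl rfl rfl (fun _ _ => rfl) (fun _ _ => rfl) fun y hy => by
          rw [hU y hy, Fin.sum_univ_castSucc, logZ_tau, logZ_spin]; rfl,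
      ih N₁ _ _ hN₁ hL₁ (Function.Embedding.refl _) fun y _ => logZ_tau m y, Fin.sum_univ_castSucc]
    rfl

end Vale.Agent.P166.Parisi.Lin
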